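import Vale.Agent.P297.H572.Z3.Defs

/-!
Points of a short Weierstrass curve: coordinates in a subfield, automorphisms, the points of order
three, and collinear points.
-/

set_option linter.unusedSectionVars false

namespace Vale.Agent.P297.Z3

open WeierstrassCurve WeierstrassCurve.Affine

section

variable {k : Type} [Field k] {a b : k}

theorem wc_equation {x y : k} :
    (wc a b).toAffine.Equation x y ↔ y ^ 2 = x ^ 3 + a * x + b := by
  rw [Affine.equation_iff]
  simp [wc]

theorem wc_negY (x y : k) : (wc a b).toAffine.negY x y = -y := by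
  simp [Affine.negY, wc]

theorem wc_nonsing [CharZero k] (hd : 4 * a ^ 3 + 27 * b ^ 2 ≠ 0) {x y : k}
    (h : y ^ 2 = x ^ 3 + a * x + b) : (wc a b).toAffine.Nonsingular x y := by
  rw [Affine.nonsingular_iff]
  refine ⟨wc_equation.2 h, ?_⟩
  by_contra hcon
  rw [not_or, not_not, not_not] at hcon
  obtain ⟨h1, h2⟩ := hcon
  simp only [wc] at h1 h2
  have h3 : y = 0 := by
    have h4 : (2 : k) * y = 0 := by linear_combination h2
    exact (mul_eq_zero.1 h4).resolve_left two_ne_zero
  subst h3
  apply hd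
  have h5 : 3 * x ^ 2 + a = 0 := by linear_combination -h1
  have h6 : x ^ 3 + a * x + b = 0 := by linear_combination -h
  linear_combination (3 * x ^ 2 + 4 * a) * (3 * x ^ 2 + a) * h5 -
    27 * (x ^ 3 + a * x - b) * h6

/-- the slope -/
theorem wc_slope_of_ne [DecidableEq k] {x₁ x₂ y₁ y₂ : k} (h : x₁ ≠ x₂) :
    (wc a b).toAffine.slope x₁ x₂ y₁ y₂ = (y₁ - y₂) / (x₁ - x₂) :=
  Affine.slope_of_X_ne h

theorem wc_addX (x₁ x₂ l : k) : (wc a b).toAffine.addX x₁ x₂ l = l ^ 2 - x₁ - x₂ := by
  simp [Affine.addX, wc]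

theorem wc_addY (x₁ x₂ y₁ l : k) : (wc a b).toAffine.addY x₁ x₂ y₁ l =
    -(l * (l ^ 2 - x₁ - x₂ - x₁) + y₁) := by
  simp [Affine.addY, Affine.negAddY, Affine.negY, Affine.addX, wc]

/-- Three points of the curve on a line. -/
theorem line_three {x₁ x₂ y₁ y₂ x y l : k} (hne : x₁ ≠ x₂) (h1 : y₁ ^ 2 = x₁ ^ 3 + a * x₁ + b)
    (h2 : y₂ ^ 2 = x₂ ^ 3 + a * x₂ + b) (h : y ^ 2 = x ^ 3 + a * x + b)
    (hl2 : y₂ = l * (x₂ - x₁) + y₁) (hl : y = l * (x - x₁) + y₁) :
    x = x₁ ∨ x = x₂ ∨ x = l ^ 2 - x₁ - x₂ := by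
  have h3 : (x₁ - x₂) * ((x - x₁) * (x - x₂) * (x - (l ^ 2 - x₁ - x₂))) = 0 := by
    subst hl2 hl
    linear_combination -(x₁ - x₂) * h + (x - x₂) * h1 - (x - x₁) * h2
  rcases mul_eq_zero.1 h3 with h4 | h4
  · exact absurd (sub_eq_zero.1 h4) hne
  rcases mul_eq_zero.1 h4 with h5 | h5
  · rcases mul_eq_zero.1 h5 with h6 | h6
    · exact Or.inl (sub_eq_zero.1 h6)
    · exact Or.inr (Or.inl (sub_eq_zero.1 h6))
  · exact Or.inr (Or.inr (sub_eq_zero.1 h5))

/-- The first coordinate of a point of order three. -/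
theorem three_coord [DecidableEq k] {x y : k} (h : (wc a b).toAffine.Nonsingular x y)
    (h3 : (3 : ℕ) • Point.some x y h = 0) : 3 * x ^ 4 + 6 * a * x ^ 2 + 12 * b * x - a ^ 2 = 0 := by
  have heq : y ^ 2 = x ^ 3 + a * x + b := wc_equation.1 h.1
  have h4 : Point.some x y h + Point.some x y h = -Point.some x y h := by
    rw [eq_neg_iff_add_eq_zero, ← h3]
    abel
  by_cases hy : y = (wc a b).toAffine.negY x y
  · rw [Point.add_self_of_Y_eq hy] at h4
    have h5 : Point.some x y h = 0 := by
      rw [← neg_eq_zero]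
      exact h4.symm
    exact absurd h5 (Point.some_ne_zero h)
  · rw [Point.add_self_of_Y_ne hy, Point.neg_some] at h4
    have h5 := (Point.some.inj h4).1
    rw [Affine.slope_of_Y_ne rfl hy, wc_addX, wc_negY] at h5
    rw [wc_negY] at hy
    have hy2 : y - -y ≠ 0 := fun h0 => hy (sub_eq_zero.1 h0)
    simp only [wc] at h5
    rw [sub_sub, sub_eq_iff_eq_add, div_pow, div_eq_iff (pow_ne_zero 2 hy2)] at h5
    linear_combination -h5 - 12 * x * heq

theorem three_finite [DecidableEq k] [CharZero k] :
    {P : (wc a b).toAffine.Point | (3 : ℕ) • P = 0}.Finite := by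
  classical
  let q : Polynomial k := Polynomial.C 3 * Polynomial.X ^ 4 + Polynomial.C (6 * a) *
    Polynomial.X ^ 2 + Polynomial.C (12 * b) * Polynomial.X - Polynomial.C (a ^ 2)
  have hq : q ≠ 0 := by
    intro h0
    have h1 := congrArg (fun p => Polynomial.coeff p 4) h0
    simp only [q, Polynomial.coeff_sub, Polynomial.coeff_add, Polynomial.coeff_C_mul,
      Polynomial.coeff_X_pow, Polynomial.coeff_X, Polynomial.coeff_C, Polynomial.coeff_zero] at h1
    norm_num at h1
  let q2 : k → Polynomial k := fun x => Polynomial.X ^ 2 - Polynomial.C (x ^ 3 + a * x + b)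
  have hq2 : ∀ x, q2 x ≠ 0 := fun x => (Polynomial.monic_X_pow_sub_C _ two_ne_zero).ne_zero
  let S : Finset (k × k) := q.roots.toFinset.biUnion fun x =>
    (q2 x).roots.toFinset.image fun y => (x, y)
  let F : (wc a b).toAffine.Point → Option (k × k)
    | 0 => none
    | .some x y _ => some (x, y)
  have hF : Function.Injective F := by
    rintro (_ | ⟨x, y, h⟩) (_ | ⟨x', y', h'⟩) hPQ
    · rfl
    · exact absurd hPQ (by simp [F])
    · exact absurd hPQ (by simp [F])
    · have h1 : (x, y) = (x', y') := Option.some.inj hPQ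
      obtain ⟨rfl, rfl⟩ := Prod.mk.inj h1
      rfl
  refine Set.Finite.of_finite_image (f := F) ?_ hF.injOn
  refine ((S.image some) ∪ {none}).finite_toSet.subset ?_
  rintro _ ⟨P, hP, rfl⟩
  rcases P with (_ | ⟨x, y, h⟩)
  · exact Finset.mem_coe.2 (Finset.mem_union_right _ (Finset.mem_singleton_self _))
  · refine Finset.mem_coe.2 (Finset.mem_union_left _ (Finset.mem_image_of_mem _ ?_))
    refine Finset.mem_biUnion.2 ⟨x, ?_, Finset.mem_image.2 ⟨y, ?_, rfl⟩⟩
    · rw [Multiset.mem_toFinset, Polynomial.mem_roots hq, Polynomial.IsRoot.def]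
      have h1 := three_coord h hP
      simp only [q, Polynomial.eval_add, Polynomial.eval_sub, Polynomial.eval_mul,
        Polynomial.eval_C, Polynomial.eval_pow, Polynomial.eval_X]
      exact h1
    · rw [Multiset.mem_toFinset, Polynomial.mem_roots (hq2 x), Polynomial.IsRoot.def]
      simp only [q2, Polynomial.eval_sub, Polynomial.eval_pow, Polynomial.eval_X,
        Polynomial.eval_C]
      rw [wc_equation.1 h.1, sub_self]

theorem wc_map (g : k →+* k) (hg : g a = a ∧ g b = b) :
    Affine.map (wc a b).toAffine g = (wc a b).toAffine := by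
  change (⟨g 0, g 0, g 0, g a, g b⟩ : WeierstrassCurve k) = ⟨0, 0, 0, a, b⟩
  rw [map_zero, hg.1, hg.2]

theorem gfun_aux (g : k →+* k) (hg : g a = a ∧ g b = b) {x y : k}
    (h : (wc a b).toAffine.Nonsingular x y) : (wc a b).toAffine.Nonsingular (g x) (g y) := by
  have h1 := (Affine.map_nonsingular (W := (wc a b).toAffine) g.injective x y).2 h
  rwa [wc_map g hg] at h1

/-- the map on points induced by an endomorphism of the field that fixes the coefficients -/
noncomputable def gfun (g : k →+* k) (hg : g a = a ∧ g b = b) :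
    (wc a b).toAffine.Point → (wc a b).toAffine.Point
  | 0 => 0
  | .some x y h => .some (g x) (g y) (gfun_aux g hg h)

theorem gfun_some (g : k →+* k) (hg : g a = a ∧ g b = b) {x y : k}
    (h : (wc a b).toAffine.Nonsingular x y) (h' : (wc a b).toAffine.Nonsingular (g x) (g y)) :
    gfun g hg (.some x y h) = .some (g x) (g y) h' := rfl

theorem gfun_add [DecidableEq k] (g : k →+* k) (hg : g a = a ∧ g b = b)
    (P Q : (wc a b).toAffine.Point) : gfun g hg (P + Q) = gfun g hg P + gfun g hg Q := by
  rcases P with (_ | ⟨x₁, y₁, h₁⟩)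
  · change gfun g hg (0 + Q) = 0 + gfun g hg Q
    rw [zero_add, zero_add]
  rcases Q with (_ | ⟨x₂, y₂, h₂⟩)
  · change gfun g hg (Point.some x₁ y₁ h₁ + 0) = gfun g hg (Point.some x₁ y₁ h₁) + 0
    rw [add_zero, add_zero]
  have hneg : ∀ x y, (wc a b).toAffine.negY (g x) (g y) = g ((wc a b).toAffine.negY x y) := by
    intro x y
    rw [wc_negY, wc_negY, map_neg]
  by_cases hxy : x₁ = x₂ ∧ y₁ = (wc a b).toAffine.negY x₂ y₂
  · rw [Point.add_of_Y_eq hxy.1 hxy.2]
    refine (Point.add_of_Y_eq (congrArg g hxy.1) ?_).symm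
    rw [hneg, ← hxy.2]
  · rw [Point.add_some hxy]
    have hxy' : ¬ (g x₁ = g x₂ ∧ g y₁ = (wc a b).toAffine.negY (g x₂) (g y₂)) := by
      rintro ⟨h1, h2⟩
      rw [hneg] at h2
      exact hxy ⟨g.injective h1, g.injective h2⟩
    refine Eq.trans ?_ (Point.add_some hxy').symm
    have hs : (wc a b).toAffine.slope (g x₁) (g x₂) (g y₁) (g y₂) =
        g ((wc a b).toAffine.slope x₁ x₂ y₁ y₂) := by
      have h1 := Affine.map_slope (W := (wc a b).toAffine) g x₁ x₂ y₁ y₂
      rwa [wc_map g hg] at h1
    change Point.some _ _ _ = Point.some _ _ _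
    rw [Point.some.injEq]
    refine ⟨?_, ?_⟩
    · rw [hs, wc_addX, wc_addX]
      simp only [map_sub, map_pow]
    · rw [hs, wc_addY, wc_addY]
      simp only [map_sub, map_pow, map_neg, map_mul, map_add]

theorem gfun_zero (g : k →+* k) (hg : g a = a ∧ g b = b) : gfun g hg 0 = 0 := rfl

theorem gfun_neg (g : k →+* k) (hg : g a = a ∧ g b = b)
    (P : (wc a b).toAffine.Point) : gfun g hg (-P) = -gfun g hg P := by
  rcases P with (_ | ⟨x, y, h⟩)
  · rfl
  · change gfun g hg (Point.some _ _ _) = Point.some _ _ _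
    change Point.some _ _ _ = Point.some _ _ _
    rw [Point.some.injEq]
    refine ⟨rfl, ?_⟩
    rw [wc_negY, wc_negY, map_neg]

theorem gfun_nsmul [DecidableEq k] (g : k →+* k) (hg : g a = a ∧ g b = b) (n : ℕ)
    (P : (wc a b).toAffine.Point) : gfun g hg (n • P) = n • gfun g hg P := by
  induction n with
  | zero => rw [zero_smul, zero_smul]; rfl
  | succ n ih => rw [succ_nsmul, gfun_add, ih, succ_nsmul]

theorem gfun_injective (g : k →+* k) (hg : g a = a ∧ g b = b) :
    Function.Injective (gfun g hg) := by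
  rintro (_ | ⟨x, y, h⟩) (_ | ⟨x', y', h'⟩) hPQ
  · rfl
  · exact absurd hPQ.symm (Point.some_ne_zero _)
  · exact absurd hPQ (Point.some_ne_zero _)
  · have h1 := Point.some.inj hPQ
    obtain ⟨rfl, rfl⟩ : x = x' ∧ y = y' := ⟨g.injective h1.1, g.injective h1.2⟩
    rfl

/-- the points of order dividing three -/
noncomputable def tors [DecidableEq k] [CharZero k] (a b : k) :
    Finset (wc a b).toAffine.Point := (three_finite (a := a) (b := b)).toFinset

theorem mem_tors [DecidableEq k] [CharZero k] {P : (wc a b).toAffine.Point} :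
    P ∈ tors a b ↔ (3 : ℕ) • P = 0 := by
  unfold tors
  rw [Set.Finite.mem_toFinset]
  rfl

theorem card_tors [DecidableEq k] [CharZero k] : ∃ n : ℕ, (tors a b).card = 3 ^ n := by
  let H : AddSubgroup (wc a b).toAffine.Point := (nsmulAddMonoidHom 3).ker
  have hH : ∀ P, P ∈ H ↔ (3 : ℕ) • P = 0 := fun P => Iff.rfl
  have hfin : Finite H := by
    have h1 : (H : Set (wc a b).toAffine.Point).Finite := three_finite (a := a) (b := b)
    exact h1
  have hp : IsPGroup 3 (Multiplicative H) := by
    intro g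
    refine ⟨1, ?_⟩
    have h1 : (3 : ℕ) • (Multiplicative.toAdd g) = 0 := by
      apply Subtype.ext
      exact (Multiplicative.toAdd g).2
    rw [pow_one]
    exact h1
  have : Fact (Nat.Prime 3) := ⟨Nat.prime_three⟩
  obtain ⟨n, hn⟩ := (IsPGroup.iff_card (p := 3) (G := Multiplicative H)).1 hp
  refine ⟨n, ?_⟩
  rw [← hn]
  have h2 : Nat.card (Multiplicative H) = Nat.card H := rfl
  rw [h2]
  have h3 : Nat.card H = (tors a b).card := by
    rw [← Nat.card_eq_finsetCard]
    refine Nat.card_congr (Equiv.subtypeEquivRight fun P => ?_)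
    rw [mem_tors]
    exact hH P
  exact h3.symm

theorem card_tors_le [DecidableEq k] [CharZero k] : (tors a b).card ≤ 9 := by
  classical
  let q : Polynomial k := Polynomial.C 3 * Polynomial.X ^ 4 + Polynomial.C (6 * a) *
    Polynomial.X ^ 2 + Polynomial.C (12 * b) * Polynomial.X - Polynomial.C (a ^ 2)
  have hq : q ≠ 0 := by
    intro h0
    have h1 := congrArg (fun p => Polynomial.coeff p 4) h0
    simp only [q, Polynomial.coeff_sub, Polynomial.coeff_add, Polynomial.coeff_C_mul,
      Polynomial.coeff_X_pow, Polynomial.coeff_X, Polynomial.coeff_C, Polynomial.coeff_zero] at h1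
    norm_num at h1
  have hqd : q.natDegree ≤ 4 := by
    simp only [q]
    compute_degree
  let q2 : k → Polynomial k := fun x => Polynomial.X ^ 2 - Polynomial.C (x ^ 3 + a * x + b)
  have hq2 : ∀ x, q2 x ≠ 0 := fun x => (Polynomial.monic_X_pow_sub_C _ two_ne_zero).ne_zero
  have hq2d : ∀ x, (q2 x).natDegree ≤ 2 := by
    intro x
    simp only [q2]
    compute_degree
  let S : Finset (k × k) := q.roots.toFinset.biUnion fun x =>
    (q2 x).roots.toFinset.image fun y => (x, y)
  have hS : S.card ≤ 8 := by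
    have h1 : S.card ≤ q.roots.toFinset.card * 2 := by
      apply Finset.card_biUnion_le_card_mul
      intro x _
      calc ((q2 x).roots.toFinset.image fun y => (x, y)).card ≤ (q2 x).roots.toFinset.card :=
            Finset.card_image_le
        _ ≤ Multiset.card (q2 x).roots := Multiset.toFinset_card_le _
        _ ≤ (q2 x).natDegree := Polynomial.card_roots' _
        _ ≤ 2 := hq2d x
    have h2 : q.roots.toFinset.card ≤ 4 :=
      ((Multiset.toFinset_card_le _).trans (Polynomial.card_roots' _)).trans hqd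
    omega
  let F : (wc a b).toAffine.Point → Option (k × k)
    | 0 => none
    | .some x y _ => some (x, y)
  have hF : Function.Injective F := by
    rintro (_ | ⟨x, y, h⟩) (_ | ⟨x', y', h'⟩) hPQ
    · rfl
    · exact absurd hPQ (by simp [F])
    · exact absurd hPQ (by simp [F])
    · have h1 : (x, y) = (x', y') := Option.some.inj hPQ
      obtain ⟨rfl, rfl⟩ := Prod.mk.inj h1
      rfl
  have h3 : (tors a b).card ≤ ((S.image some) ∪ {none}).card := by
    rw [← Finset.card_image_of_injective (tors a b) hF]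
    apply Finset.card_le_card
    intro o ho
    obtain ⟨P, hP, rfl⟩ := Finset.mem_image.1 ho
    rw [mem_tors] at hP
    rcases P with (_ | ⟨x, y, h⟩)
    · exact Finset.mem_union_right _ (Finset.mem_singleton_self _)
    · refine Finset.mem_union_left _ (Finset.mem_image_of_mem _ ?_)
      refine Finset.mem_biUnion.2 ⟨x, ?_, Finset.mem_image.2 ⟨y, ?_, rfl⟩⟩
      · rw [Multiset.mem_toFinset, Polynomial.mem_roots hq, Polynomial.IsRoot.def]
        have h1 := three_coord h hP
        simp only [q, Polynomial.eval_add, Polynomial.eval_sub, Polynomial.eval_mul,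
          Polynomial.eval_C, Polynomial.eval_pow, Polynomial.eval_X]
        exact h1
      · rw [Multiset.mem_toFinset, Polynomial.mem_roots (hq2 x), Polynomial.IsRoot.def]
        simp only [q2, Polynomial.eval_sub, Polynomial.eval_pow, Polynomial.eval_X,
          Polynomial.eval_C]
        rw [wc_equation.1 h.1, sub_self]
  have h4 : ((S.image some) ∪ {none} : Finset (Option (k × k))).card ≤ S.card + 1 := by
    refine (Finset.card_union_le _ _).trans ?_
    rw [Finset.card_singleton]
    exact Nat.add_le_add_right Finset.card_image_le 1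
  omega

end

end Vale.Agent.P297.Z3
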