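import Vale.Agent.P297.Gen.Setup
import Vale.Agent.P297.H572.Z3.Pts

/-!
Closed subfields of an algebraically closed field of transcendence degree three.
-/

set_option linter.unusedSectionVars false

open IntermediateField Polynomial

namespace Vale.Agent.P297.Z3

open Vale.Agent.P297 Vale.Agent.P297.Gen Vale.Agent.P297.H839 Vale.Agent.P297.H516

section

variable {N : Type} [Field N] [Algebra ℂ N] [IsAlgClosed N] {u : Fin 3 → N}

/-- `M` is relatively algebraically closed. -/
def Closed (M : IntermediateField ℂ N) : Prop := ∀ x : N, IsAlgebraic M x → x ∈ M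

theorem closed_cl0 (S : Set N) : Closed (cl0 S) := cl0_closed S

theorem closed_clo (M : IntermediateField ℂ N) (S : Set N) : Closed (clo M S) := clo_closed M S

theorem clo_single_le {M M' : IntermediateField ℂ N} (hM' : Closed M') (h : M ≤ M') {x : N}
    (hx : x ∈ M') : clo M {x} ≤ M' :=
  clo_le hM' h (Set.singleton_subset_iff.2 hx)

theorem mem_clo_self (M : IntermediateField ℂ N) (x : N) : x ∈ clo M {x} :=
  subset_clo M {x} rfl

/-- not everything is algebraic over `κ(x)` -/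
theorem exists_notMem (h : Big N u) (x : N) : ∃ t, t ∉ clo (cl0 {u 0}) {x} := by
  by_contra hcon
  push Not at hcon
  have h1 := hcon (u 1)
  have h2 := hcon (u 2)
  have h3 : x ∈ clo (cl0 {u 0}) {u 1} := exchange (cl0_closed _) h1 h.one
  exact h.two (clo_single_le (closed_clo _ _) (le_clo _ _) h3 h2)

theorem hyper_alg (h : Big N u) {M : IntermediateField ℂ N} (hM : Closed M)
    (hκ : cl0 {u 0} ≤ M) {x t : N} (hx : x ∉ M) (ht : t ∈ M) (htκ : t ∉ cl0 {u 0}) :
    ∀ v : N, IsAlgebraic (IntermediateField.adjoin M {x}) v := by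
  intro v
  rw [← mem_clo]
  refine h.full (closed_clo _ _) (hκ.trans (le_clo _ _)) (le_clo _ _ ht) (mem_clo_self _ _) htκ
    (fun h1 => hx (clo_single_le hM hκ ht h1)) v

theorem hyper2 (h : Big N u) {x x' : N} (hx : x ∉ cl0 {u 0}) (hx' : x' ∉ cl0 {u 0}) :
    ∃ M : IntermediateField ℂ N, Closed M ∧ cl0 {u 0} ≤ M ∧ x ∉ M ∧ x' ∉ M ∧
      (∀ v : N, IsAlgebraic (IntermediateField.adjoin M {x}) v) ∧
      (∀ v : N, IsAlgebraic (IntermediateField.adjoin M {x'}) v) := by
  set κ := cl0 ({u 0} : Set N) with hκ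
  have hκc : Closed κ := closed_cl0 _
  have key : ∀ t, t ∉ κ → x ∉ clo κ {t} → x' ∉ clo κ {t} →
      ∃ M : IntermediateField ℂ N, Closed M ∧ cl0 {u 0} ≤ M ∧ x ∉ M ∧ x' ∉ M ∧
      (∀ v : N, IsAlgebraic (IntermediateField.adjoin M {x}) v) ∧
      (∀ v : N, IsAlgebraic (IntermediateField.adjoin M {x'}) v) := by
    intro t ht h1 h2
    exact ⟨clo κ {t}, closed_clo _ _, le_clo _ _, h1, h2,
      hyper_alg h (closed_clo _ _) (le_clo _ _) h1 (mem_clo_self _ _) ht,
      hyper_alg h (closed_clo _ _) (le_clo _ _) h2 (mem_clo_self _ _) ht⟩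
  by_cases h1 : x' ∈ clo κ {x}
  · obtain ⟨t, ht⟩ := exists_notMem h x
    have htκ : t ∉ κ := fun h0 => ht (le_clo _ _ h0)
    refine key t htκ (fun h2 => ht (exchange hκc h2 hx)) (fun h2 => ht ?_)
    exact clo_single_le (closed_clo _ _) (le_clo _ _) h1 (exchange hκc h2 hx')
  · have hxx : ∀ z, z ∈ clo κ {x + x'} → (z = x ∨ z = x') → x' ∈ clo κ {x} := by
      intro z hz hzx
      have h2 : x ∈ clo κ {x + x'} := by
        rcases hzx with rfl | rfl
        · exact hz
        · have h3 := sub_mem (mem_clo_self κ (x + z)) hz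
          rwa [add_sub_cancel_right] at h3
      have h3 : x + x' ∈ clo κ {x} := exchange hκc h2 hx
      have h4 := sub_mem h3 (mem_clo_self κ x)
      rwa [add_sub_cancel_left] at h4
    refine key (x + x') (fun h2 => h1 ?_) (fun h2 => h1 (hxx _ h2 (Or.inl rfl)))
      (fun h2 => h1 (hxx _ h2 (Or.inr rfl)))
    have h4 := sub_mem (le_clo κ {x} h2) (mem_clo_self κ x)
    rwa [add_sub_cancel_left] at h4

theorem hyper1 (h : Big N u) {M : IntermediateField ℂ N} (hM : Closed M)
    (hκ : cl0 {u 0} ≤ M) {x : N} (hx : x ∉ M) :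
    ∃ M' : IntermediateField ℂ N, Closed M' ∧ M ≤ M' ∧ x ∉ M' ∧
      (∀ v : N, IsAlgebraic (IntermediateField.adjoin M' {x}) v) := by
  obtain ⟨t, ht⟩ | h1 := em (∃ t, t ∉ clo M {x})
  · have htM : t ∉ M := fun h0 => ht (le_clo _ _ h0)
    refine ⟨clo M {t}, closed_clo _ _, le_clo _ _, fun h2 => ht (exchange hM h2 hx), ?_⟩
    refine hyper_alg h (closed_clo _ _) (hκ.trans (le_clo _ _))
      (fun h2 => ht (exchange hM h2 hx)) (mem_clo_self _ _) (fun h2 => htM (hκ h2))
  · push Not at h1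
    exact ⟨M, hM, le_rfl, hx, fun v => mem_clo.1 (h1 v)⟩

/-- everything is algebraic over `ℂ(e, x, t)` for independent `x`, `t` -/
theorem all_mem (h : Big N u) {x t : N} (hx : x ∉ cl0 {u 0}) (ht : t ∉ clo (cl0 {u 0}) {x})
    {S : Set N} (h0 : u 0 ∈ cl0 S) (h1 : x ∈ cl0 S) (h2 : t ∈ cl0 S) (v : N) : v ∈ cl0 S :=
  h.full (cl0_closed S) (cl0_le (cl0_closed _) (Set.singleton_subset_iff.2 h0)) h1 h2 hx ht v

theorem all_alg (h : Big N u) {x t : N} (hx : x ∉ cl0 {u 0}) (ht : t ∉ clo (cl0 {u 0}) {x})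
    {S : Set N} (h0 : u 0 ∈ cl0 S) (h1 : x ∈ cl0 S) (h2 : t ∈ cl0 S) :
    Algebra.IsAlgebraic (IntermediateField.adjoin ℂ S) N :=
  ⟨fun v => mem_cl0.1 (all_mem h hx ht h0 h1 h2 v)⟩

theorem indep_of_all (h : Big N u) {p q r : N} (hall : ∀ v, v ∈ cl0 (Set.range ![p, q, r])) :
    AlgebraicIndependent ℂ ![p, q, r] :=
  indep_of_algebraic h.ind fun i => mem_cl0.1 (hall (u i))

/-- an automorphism that changes the sign of `e` -/
theorem exists_sign (h : Big N u) : ∃ σ : N ≃ₐ[ℂ] N, σ (u 0) = - u 0 := by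
  have hM : Closed (cl0 ({u 1, u 2} : Set N)) := closed_cl0 _
  have h0 : u 0 ∉ cl0 ({u 1, u 2} : Set N) := by
    have h1 := h.notMem (s := {1, 2}) (i := 0) (by simp)
    rwa [Set.image_insert_eq, Set.image_singleton] at h1
  have halg : ∀ z, (u 0 ∈ clo (cl0 ({u 1, u 2} : Set N)) {z}) →
      ∀ v : N, IsAlgebraic (IntermediateField.adjoin (cl0 ({u 1, u 2} : Set N)) {z}) v := by
    intro z hz v
    rw [← mem_clo]
    refine h.all _ (closed_clo _ _) ?_ v
    intro i
    fin_cases i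
    · exact hz
    · exact le_clo _ _ (subset_cl0 _ (by simp))
    · exact le_clo _ _ (subset_cl0 _ (by simp))
  obtain ⟨g, hg⟩ := exists_move (cl0 ({u 1, u 2} : Set N)) (z := u 0) (z' := - u 0)
    (fun h1 => h0 (hM _ h1)) (fun h1 => h0 (by
      have h2 := neg_mem (hM _ h1)
      rwa [neg_neg] at h2)) (halg _ (mem_clo_self _ _)) (halg _ (by
      have h2 := neg_mem (mem_clo_self (cl0 ({u 1, u 2} : Set N)) (- u 0))
      rwa [neg_neg] at h2))
  exact ⟨g.restrictScalars ℂ, hg⟩

/-- automorphisms that map `e` to `± e` preserve `κ` -/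
theorem map_kappa {σ : N ≃ₐ[ℂ] N} {e : N} (hσ : σ e = e ∨ σ e = -e) {z : N}
    (hz : z ∈ cl0 {e}) : σ z ∈ cl0 {e} := by
  have h1 : cl0 {e} ≤ (cl0 {e}).comap σ.toAlgHom := by
    refine cl0_le ?_ ?_
    · intro x hx
      change σ x ∈ cl0 {e}
      apply closed_cl0
      obtain ⟨p, hp0, hp⟩ := hx
      refine isAlgebraic_of_coeff (p := (p.map (algebraMap (IntermediateField.comap σ.toAlgHom
        (cl0 {e})) N)).map (σ : N →+* N)) ?_ ?_ ?_
      · intro n
        rw [coeff_map, coeff_map]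
        exact (p.coeff n).2
      · refine (Polynomial.map_ne_zero_iff (σ : N →+* N).injective).2 ?_
        exact (Polynomial.map_ne_zero_iff (RingHom.injective _)).2 hp0
      · have h2 := congrArg σ hp
        rw [map_zero, Polynomial.aeval_def, ← Polynomial.eval_map] at h2
        rw [← h2]
        exact Polynomial.eval_map_apply (σ : N →+* N) x
    · rintro _ rfl
      change σ _ ∈ cl0 _
      rcases hσ with h | h
      · rw [h]
        exact subset_cl0 _ rfl
      · rw [h]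
        exact neg_mem (subset_cl0 _ rfl)
  exact h1 hz

end

end Vale.Agent.P297.Z3
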