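import Mathlib

/-!
Ternary cubic forms: the invariants `c4`, `c6` and their behaviour under linear changes of the
variables.
-/

namespace Vale.Agent.P297.Z3

/-- The value of the ternary cubic with coefficients `f` (of `x³, x²y, x²z, xy², xyz, xz², y³, y²z,
yz², z³`). -/
def tc {R : Type} [CommRing R] (f : Fin 10 → R) (x y z : R) : R :=
  f 0 * x ^ 3 + f 1 * x ^ 2 * y + f 2 * x ^ 2 * z + f 3 * x * y ^ 2 + f 4 * x * y * z +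
    f 5 * x * z ^ 2 + f 6 * y ^ 3 + f 7 * y ^ 2 * z + f 8 * y * z ^ 2 + f 9 * z ^ 3

/-- The value of a ternary cubic at a vector. -/
def tv {R : Type} [CommRing R] (f : Fin 10 → R) (v : Fin 3 → R) : R := tc f (v 0) (v 1) (v 2)

/-- The short Weierstrass form `y² z - x³ - a x z² - b z³`. -/
def wf {R : Type} [CommRing R] (a b : R) : Fin 10 → R := ![-1, 0, 0, 0, 0, -a, 0, 1, 0, -b]

/-- The invariant of degree four. -/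
def c4 {R : Type} [CommRing R] (f : Fin 10 → R) : R :=
  f 4 ^ 4 - 8 * (f 3 * f 4 ^ 2 * f 5) + 16 * (f 3 ^ 2 * f 5 ^ 2)
      + 24 * (f 2 * f 4 * f 5 * f 6) - 8 * (f 2 * f 4 ^ 2 * f 7)
      - 16 * (f 2 * f 3 * f 5 * f 7) + 24 * (f 2 * f 3 * f 4 * f 8)
      - 48 * (f 2 * f 3 ^ 2 * f 9) + 16 * (f 2 ^ 2 * f 7 ^ 2) - 48 * (f 2 ^ 2 * f 6 * f 8)
      - 48 * (f 1 * f 5 ^ 2 * f 6) + 24 * (f 1 * f 4 * f 5 * f 7)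
      - 8 * (f 1 * f 4 ^ 2 * f 8) - 16 * (f 1 * f 3 * f 5 * f 8)
      + 24 * (f 1 * f 3 * f 4 * f 9) - 16 * (f 1 * f 2 * f 7 * f 8)
      + 144 * (f 1 * f 2 * f 6 * f 9) + 16 * (f 1 ^ 2 * f 8 ^ 2)
      - 48 * (f 1 ^ 2 * f 7 * f 9) - 48 * (f 0 * f 5 * f 7 ^ 2)
      + 144 * (f 0 * f 5 * f 6 * f 8) + 24 * (f 0 * f 4 * f 7 * f 8)
      - 216 * (f 0 * f 4 * f 6 * f 9) - 48 * (f 0 * f 3 * f 8 ^ 2)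
      + 144 * (f 0 * f 3 * f 7 * f 9)

/-- The invariant of degree six. -/
def c6 {R : Type} [CommRing R] (f : Fin 10 → R) : R :=
  -f 4 ^ 6 + 12 * (f 3 * f 4 ^ 4 * f 5) - 48 * (f 3 ^ 2 * f 4 ^ 2 * f 5 ^ 2)
      + 64 * (f 3 ^ 3 * f 5 ^ 3) - 36 * (f 2 * f 4 ^ 3 * f 5 * f 6)
      + 12 * (f 2 * f 4 ^ 4 * f 7) + 144 * (f 2 * f 3 * f 4 * f 5 ^ 2 * f 6)
      - 24 * (f 2 * f 3 * f 4 ^ 2 * f 5 * f 7) - 36 * (f 2 * f 3 * f 4 ^ 3 * f 8)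
      - 96 * (f 2 * f 3 ^ 2 * f 5 ^ 2 * f 7) + 144 * (f 2 * f 3 ^ 2 * f 4 * f 5 * f 8)
      + 72 * (f 2 * f 3 ^ 2 * f 4 ^ 2 * f 9) - 288 * (f 2 * f 3 ^ 3 * f 5 * f 9)
      - 216 * (f 2 ^ 2 * f 5 ^ 2 * f 6 ^ 2) + 144 * (f 2 ^ 2 * f 4 * f 5 * f 6 * f 7)
      - 48 * (f 2 ^ 2 * f 4 ^ 2 * f 7 ^ 2) + 72 * (f 2 ^ 2 * f 4 ^ 2 * f 6 * f 8)
      - 96 * (f 2 ^ 2 * f 3 * f 5 * f 7 ^ 2) + 144 * (f 2 ^ 2 * f 3 * f 5 * f 6 * f 8)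
      + 144 * (f 2 ^ 2 * f 3 * f 4 * f 7 * f 8) - 864 * (f 2 ^ 2 * f 3 * f 4 * f 6 * f 9)
      - 216 * (f 2 ^ 2 * f 3 ^ 2 * f 8 ^ 2) + 576 * (f 2 ^ 2 * f 3 ^ 2 * f 7 * f 9)
      + 64 * (f 2 ^ 3 * f 7 ^ 3) - 288 * (f 2 ^ 3 * f 6 * f 7 * f 8)
      + 864 * (f 2 ^ 3 * f 6 ^ 2 * f 9) + 72 * (f 1 * f 4 ^ 2 * f 5 ^ 2 * f 6)
      - 36 * (f 1 * f 4 ^ 3 * f 5 * f 7) + 12 * (f 1 * f 4 ^ 4 * f 8)
      - 288 * (f 1 * f 3 * f 5 ^ 3 * f 6) + 144 * (f 1 * f 3 * f 4 * f 5 ^ 2 * f 7)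
      - 24 * (f 1 * f 3 * f 4 ^ 2 * f 5 * f 8) - 36 * (f 1 * f 3 * f 4 ^ 3 * f 9)
      - 96 * (f 1 * f 3 ^ 2 * f 5 ^ 2 * f 8) + 144 * (f 1 * f 3 ^ 2 * f 4 * f 5 * f 9)
      + 144 * (f 1 * f 2 * f 5 ^ 2 * f 6 * f 7) + 144 * (f 1 * f 2 * f 4 * f 5 * f 7 ^ 2)
      - 720 * (f 1 * f 2 * f 4 * f 5 * f 6 * f 8) - 24 * (f 1 * f 2 * f 4 ^ 2 * f 7 * f 8)
      + 648 * (f 1 * f 2 * f 4 ^ 2 * f 6 * f 9) - 48 * (f 1 * f 2 * f 3 * f 5 * f 7 * f 8)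
      + 1296 * (f 1 * f 2 * f 3 * f 5 * f 6 * f 9)
      + 144 * (f 1 * f 2 * f 3 * f 4 * f 8 ^ 2)
      - 720 * (f 1 * f 2 * f 3 * f 4 * f 7 * f 9)
      + 144 * (f 1 * f 2 * f 3 ^ 2 * f 8 * f 9) - 96 * (f 1 * f 2 ^ 2 * f 7 ^ 2 * f 8)
      + 576 * (f 1 * f 2 ^ 2 * f 6 * f 8 ^ 2) - 864 * (f 1 * f 2 ^ 2 * f 6 * f 7 * f 9)
      - 216 * (f 1 ^ 2 * f 5 ^ 2 * f 7 ^ 2) + 576 * (f 1 ^ 2 * f 5 ^ 2 * f 6 * f 8)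
      + 144 * (f 1 ^ 2 * f 4 * f 5 * f 7 * f 8) - 864 * (f 1 ^ 2 * f 4 * f 5 * f 6 * f 9)
      - 48 * (f 1 ^ 2 * f 4 ^ 2 * f 8 ^ 2) + 72 * (f 1 ^ 2 * f 4 ^ 2 * f 7 * f 9)
      - 96 * (f 1 ^ 2 * f 3 * f 5 * f 8 ^ 2) + 144 * (f 1 ^ 2 * f 3 * f 5 * f 7 * f 9)
      + 144 * (f 1 ^ 2 * f 3 * f 4 * f 8 * f 9) - 216 * (f 1 ^ 2 * f 3 ^ 2 * f 9 ^ 2)
      - 96 * (f 1 ^ 2 * f 2 * f 7 * f 8 ^ 2) + 576 * (f 1 ^ 2 * f 2 * f 7 ^ 2 * f 9)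
      - 864 * (f 1 ^ 2 * f 2 * f 6 * f 8 * f 9) + 64 * (f 1 ^ 3 * f 8 ^ 3)
      - 288 * (f 1 ^ 3 * f 7 * f 8 * f 9) + 864 * (f 1 ^ 3 * f 6 * f 9 ^ 2)
      + 864 * (f 0 * f 5 ^ 3 * f 6 ^ 2) - 864 * (f 0 * f 4 * f 5 ^ 2 * f 6 * f 7)
      + 72 * (f 0 * f 4 ^ 2 * f 5 * f 7 ^ 2) + 648 * (f 0 * f 4 ^ 2 * f 5 * f 6 * f 8)
      - 36 * (f 0 * f 4 ^ 3 * f 7 * f 8) - 540 * (f 0 * f 4 ^ 3 * f 6 * f 9)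
      + 576 * (f 0 * f 3 * f 5 ^ 2 * f 7 ^ 2) - 864 * (f 0 * f 3 * f 5 ^ 2 * f 6 * f 8)
      - 720 * (f 0 * f 3 * f 4 * f 5 * f 7 * f 8)
      + 1296 * (f 0 * f 3 * f 4 * f 5 * f 6 * f 9) + 72 * (f 0 * f 3 * f 4 ^ 2 * f 8 ^ 2)
      + 648 * (f 0 * f 3 * f 4 ^ 2 * f 7 * f 9) + 576 * (f 0 * f 3 ^ 2 * f 5 * f 8 ^ 2)
      - 864 * (f 0 * f 3 ^ 2 * f 5 * f 7 * f 9) - 864 * (f 0 * f 3 ^ 2 * f 4 * f 8 * f 9)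
      + 864 * (f 0 * f 3 ^ 3 * f 9 ^ 2) - 288 * (f 0 * f 2 * f 5 * f 7 ^ 3)
      + 1296 * (f 0 * f 2 * f 5 * f 6 * f 7 * f 8)
      - 3888 * (f 0 * f 2 * f 5 * f 6 ^ 2 * f 9) + 144 * (f 0 * f 2 * f 4 * f 7 ^ 2 * f 8)
      - 864 * (f 0 * f 2 * f 4 * f 6 * f 8 ^ 2)
      + 1296 * (f 0 * f 2 * f 4 * f 6 * f 7 * f 9)
      + 144 * (f 0 * f 2 * f 3 * f 7 * f 8 ^ 2) - 864 * (f 0 * f 2 * f 3 * f 7 ^ 2 * f 9)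
      + 1296 * (f 0 * f 2 * f 3 * f 6 * f 8 * f 9)
      + 144 * (f 0 * f 1 * f 5 * f 7 ^ 2 * f 8) - 864 * (f 0 * f 1 * f 5 * f 6 * f 8 ^ 2)
      + 1296 * (f 0 * f 1 * f 5 * f 6 * f 7 * f 9)
      + 144 * (f 0 * f 1 * f 4 * f 7 * f 8 ^ 2) - 864 * (f 0 * f 1 * f 4 * f 7 ^ 2 * f 9)
      + 1296 * (f 0 * f 1 * f 4 * f 6 * f 8 * f 9) - 288 * (f 0 * f 1 * f 3 * f 8 ^ 3)
      + 1296 * (f 0 * f 1 * f 3 * f 7 * f 8 * f 9)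
      - 3888 * (f 0 * f 1 * f 3 * f 6 * f 9 ^ 2) - 216 * (f 0 ^ 2 * f 7 ^ 2 * f 8 ^ 2)
      + 864 * (f 0 ^ 2 * f 7 ^ 3 * f 9) + 864 * (f 0 ^ 2 * f 6 * f 8 ^ 3)
      - 3888 * (f 0 ^ 2 * f 6 * f 7 * f 8 * f 9) + 5832 * (f 0 ^ 2 * f 6 ^ 2 * f 9 ^ 2)


/-- The short Weierstrass curve `y² = x³ + a x + b`. -/
def wc {R : Type} [CommRing R] (a b : R) : WeierstrassCurve R := ⟨0, 0, 0, a, b⟩

/-- The form `g` is obtained from `f` by the linear substitution `M`. -/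
def IsSub {R : Type} [CommRing R] (f : Fin 10 → R) (M : Matrix (Fin 3) (Fin 3) R)
    (g : Fin 10 → R) : Prop :=
  ∀ v : Fin 3 → R, tv g v = tv f (M.mulVec v)

/-- [Z1] The invariants under linear substitutions. -/
def StmtCov : Prop := ∀ (k : Type) [Field k] [CharZero k] (f g : Fin 10 → k)
  (M : Matrix (Fin 3) (Fin 3) k), M.det ≠ 0 → IsSub f M g →
  c4 g = M.det ^ 4 * c4 f ∧ c6 g = M.det ^ 6 * c6 f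

/-- [Z2] The normal form over an algebraically closed field. -/
def StmtNormal : Prop := ∀ (k : Type) [Field k] [IsAlgClosed k] [CharZero k] (f : Fin 10 → k),
  c4 f ^ 3 ≠ c6 f ^ 2 → ∃ A : Matrix (Fin 3) (Fin 3) k, A.det ≠ 0 ∧
    ∀ v : Fin 3 → k, tv (wf (-c4 f / 48) (-c6 f / 864)) (A.mulVec v) = A.det * tv f v

/-- [Z3] Linear automorphisms of a short Weierstrass curve that preserve the differential are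
translations by points of order three. -/
def StmtLin : Prop := ∀ (k : Type) [Field k] [DecidableEq k] [CharZero k] (a b : k)
  (B : Matrix (Fin 3) (Fin 3) k), 4 * a ^ 3 + 27 * b ^ 2 ≠ 0 → B.det ≠ 0 →
  (∀ v : Fin 3 → k, tv (wf a b) (B.mulVec v) = B.det * tv (wf a b) v) →
  ∃ t : (wc a b).toAffine.Point, (3 : ℕ) • t = 0 ∧
    ∀ (x y : k) (h : (wc a b).toAffine.Nonsingular x y), B.mulVec ![x, y, 1] 2 ≠ 0 →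
      ∃ h' : (wc a b).toAffine.Nonsingular (B.mulVec ![x, y, 1] 0 / B.mulVec ![x, y, 1] 2)
        (B.mulVec ![x, y, 1] 1 / B.mulVec ![x, y, 1] 2),
        WeierstrassCurve.Affine.Point.some _ _ h' = WeierstrassCurve.Affine.Point.some x y h + t

end Vale.Agent.P297.Z3
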