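import Vale.Agent.P297.H572.Z3.Defs

/-!
The invariants of ternary cubic forms under linear substitutions.
-/

set_option linter.style.longLine false

namespace Vale.Agent.P297.Z3

variable {k : Type} [Field k]

/-- Two ternary cubics with the same values are equal. -/
theorem tv_inj [CharZero k] {f g : Fin 10 → k} (h : ∀ v : Fin 3 → k, tv f v = tv g v) : f = g := by
  have e0 := h ![1, 0, 0]
  have e6 := h ![0, 1, 0]
  have e9 := h ![0, 0, 1]
  have a1 := h ![1, 1, 0]
  have a2 := h ![1, -1, 0]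
  have b1 := h ![1, 0, 1]
  have b2 := h ![1, 0, -1]
  have c1 := h ![0, 1, 1]
  have c2 := h ![0, 1, -1]
  have d := h ![1, 1, 1]
  simp only [tv, tc, Matrix.cons_val, mul_zero, mul_one, add_zero, zero_add, zero_mul, ne_eq,
    OfNat.ofNat_ne_zero, not_false_eq_true, zero_pow, one_pow] at e0 e6 e9 a1 a2 b1 b2 c1 c2 d
  have h2 : (2 : k) ≠ 0 := two_ne_zero
  have f1 : f 1 = g 1 := mul_left_cancel₀ h2 (by linear_combination a1 - a2 - 2 * e6)
  have f3 : f 3 = g 3 := mul_left_cancel₀ h2 (by linear_combination a1 + a2 - 2 * e0)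
  have f2 : f 2 = g 2 := mul_left_cancel₀ h2 (by linear_combination b1 - b2 - 2 * e9)
  have f5 : f 5 = g 5 := mul_left_cancel₀ h2 (by linear_combination b1 + b2 - 2 * e0)
  have f7 : f 7 = g 7 := mul_left_cancel₀ h2 (by linear_combination c1 - c2 - 2 * e9)
  have f8 : f 8 = g 8 := mul_left_cancel₀ h2 (by linear_combination c1 + c2 - 2 * e6)
  have f4 : f 4 = g 4 := by
    linear_combination d - e0 - e6 - e9 - f1 - f2 - f3 - f5 - f7 - f8
  funext i
  fin_cases i
  exacts [e0, f1, f2, f3, f4, f5, e6, f7, f8, e9]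

/-- `f` can be transformed by `M`, and the invariants behave as they should. -/
def Good (M : Matrix (Fin 3) (Fin 3) k) (f : Fin 10 → k) : Prop :=
  ∃ g : Fin 10 → k, IsSub f M g ∧ c4 g = M.det ^ 4 * c4 f ∧ c6 g = M.det ^ 6 * c6 f

theorem trans_mulVec (i j : Fin 3) (c : k) (v : Fin 3 → k) (l : Fin 3) :
    (Matrix.transvection i j c).mulVec v l = v l + if l = i then c * v j else 0 := by
  rw [Matrix.transvection, Matrix.add_mulVec, Matrix.one_mulVec, Pi.add_apply,
    Matrix.single_mulVec]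
  congr 1
  by_cases h : l = i
  · subst h
    simp
  · simp [h]

theorem good_diag (D : Fin 3 → k) (f : Fin 10 → k) : Good (Matrix.diagonal D) f := by
  refine ⟨![D 0 ^ 3 * f 0, D 0 ^ 2 * D 1 * f 1, D 0 ^ 2 * D 2 * f 2, D 0 * D 1 ^ 2 * f 3,
    D 0 * D 1 * D 2 * f 4, D 0 * D 2 ^ 2 * f 5, D 1 ^ 3 * f 6, D 1 ^ 2 * D 2 * f 7,
    D 1 * D 2 ^ 2 * f 8, D 2 ^ 3 * f 9], ?_, ?_, ?_⟩
  · intro v
    simp only [tv, tc, Matrix.mulVec_diagonal, Matrix.cons_val]
    ring
  · rw [Matrix.det_diagonal, Fin.prod_univ_three]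
    simp only [c4, Matrix.cons_val]
    ring
  · rw [Matrix.det_diagonal, Fin.prod_univ_three]
    simp only [c6, Matrix.cons_val]
    ring


theorem good_01 (f : Fin 10 → k) (c : k) : Good (Matrix.transvection 0 1 c) f := by
  refine ⟨![f 0, f 1 + 3 * c * f 0, f 2, f 3 + 2 * c * f 1 + 3 * c ^ 2 * f 0, f 4 + 2 * c * f 2, f 5, f 6 + c * f 3 + c ^ 2 * f 1 + c ^ 3 * f 0, f 7 + c * f 4 + c ^ 2 * f 2, f 8 + c * f 5, f 9], ?_, ?_, ?_⟩
  · intro v
    simp only [tv, tc, trans_mulVec, Matrix.cons_val, Fin.isValue, if_true, if_false,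
      Fin.reduceEq, add_zero]
    ring
  · rw [Matrix.det_transvection_of_ne _ _ (by decide)]
    simp only [c4, Matrix.cons_val]
    ring
  · rw [Matrix.det_transvection_of_ne _ _ (by decide)]
    simp only [c6, Matrix.cons_val]
    ring

theorem good_02 (f : Fin 10 → k) (c : k) : Good (Matrix.transvection 0 2 c) f := by
  refine ⟨![f 0, f 1, f 2 + 3 * c * f 0, f 3, f 4 + 2 * c * f 1, f 5 + 2 * c * f 2 + 3 * c ^ 2 * f 0, f 6, f 7 + c * f 3, f 8 + c * f 4 + c ^ 2 * f 1, f 9 + c * f 5 + c ^ 2 * f 2 + c ^ 3 * f 0], ?_, ?_, ?_⟩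
  · intro v
    simp only [tv, tc, trans_mulVec, Matrix.cons_val, Fin.isValue, if_true, if_false,
      Fin.reduceEq, add_zero]
    ring
  · rw [Matrix.det_transvection_of_ne _ _ (by decide)]
    simp only [c4, Matrix.cons_val]
    ring
  · rw [Matrix.det_transvection_of_ne _ _ (by decide)]
    simp only [c6, Matrix.cons_val]
    ring

theorem good_10 (f : Fin 10 → k) (c : k) : Good (Matrix.transvection 1 0 c) f := by
  refine ⟨![f 0 + c * f 1 + c ^ 2 * f 3 + c ^ 3 * f 6, f 1 + 2 * c * f 3 + 3 * c ^ 2 * f 6, f 2 + c * f 4 + c ^ 2 * f 7, f 3 + 3 * c * f 6, f 4 + 2 * c * f 7, f 5 + c * f 8, f 6, f 7, f 8, f 9], ?_, ?_, ?_⟩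
  · intro v
    simp only [tv, tc, trans_mulVec, Matrix.cons_val, Fin.isValue, if_true, if_false,
      Fin.reduceEq, add_zero]
    ring
  · rw [Matrix.det_transvection_of_ne _ _ (by decide)]
    simp only [c4, Matrix.cons_val]
    ring
  · rw [Matrix.det_transvection_of_ne _ _ (by decide)]
    simp only [c6, Matrix.cons_val]
    ring

theorem good_12 (f : Fin 10 → k) (c : k) : Good (Matrix.transvection 1 2 c) f := by
  refine ⟨![f 0, f 1, f 2 + c * f 1, f 3, f 4 + 2 * c * f 3, f 5 + c * f 4 + c ^ 2 * f 3, f 6, f 7 + 3 * c * f 6, f 8 + 2 * c * f 7 + 3 * c ^ 2 * f 6, f 9 + c * f 8 + c ^ 2 * f 7 + c ^ 3 * f 6], ?_, ?_, ?_⟩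
  · intro v
    simp only [tv, tc, trans_mulVec, Matrix.cons_val, Fin.isValue, if_true, if_false,
      Fin.reduceEq, add_zero]
    ring
  · rw [Matrix.det_transvection_of_ne _ _ (by decide)]
    simp only [c4, Matrix.cons_val]
    ring
  · rw [Matrix.det_transvection_of_ne _ _ (by decide)]
    simp only [c6, Matrix.cons_val]
    ring

theorem good_20 (f : Fin 10 → k) (c : k) : Good (Matrix.transvection 2 0 c) f := by
  refine ⟨![f 0 + c * f 2 + c ^ 2 * f 5 + c ^ 3 * f 9, f 1 + c * f 4 + c ^ 2 * f 8, f 2 + 2 * c * f 5 + 3 * c ^ 2 * f 9, f 3 + c * f 7, f 4 + 2 * c * f 8, f 5 + 3 * c * f 9, f 6, f 7, f 8, f 9], ?_, ?_, ?_⟩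
  · intro v
    simp only [tv, tc, trans_mulVec, Matrix.cons_val, Fin.isValue, if_true, if_false,
      Fin.reduceEq, add_zero]
    ring
  · rw [Matrix.det_transvection_of_ne _ _ (by decide)]
    simp only [c4, Matrix.cons_val]
    ring
  · rw [Matrix.det_transvection_of_ne _ _ (by decide)]
    simp only [c6, Matrix.cons_val]
    ring

theorem good_21 (f : Fin 10 → k) (c : k) : Good (Matrix.transvection 2 1 c) f := by
  refine ⟨![f 0, f 1 + c * f 2, f 2, f 3 + c * f 4 + c ^ 2 * f 5, f 4 + 2 * c * f 5, f 5, f 6 + c * f 7 + c ^ 2 * f 8 + c ^ 3 * f 9, f 7 + 2 * c * f 8 + 3 * c ^ 2 * f 9, f 8 + 3 * c * f 9, f 9], ?_, ?_, ?_⟩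
  · intro v
    simp only [tv, tc, trans_mulVec, Matrix.cons_val, Fin.isValue, if_true, if_false,
      Fin.reduceEq, add_zero]
    ring
  · rw [Matrix.det_transvection_of_ne _ _ (by decide)]
    simp only [c4, Matrix.cons_val]
    ring
  · rw [Matrix.det_transvection_of_ne _ _ (by decide)]
    simp only [c6, Matrix.cons_val]
    ring

theorem good_all (M : Matrix (Fin 3) (Fin 3) k) (hM : M.det ≠ 0) : ∀ f : Fin 10 → k, Good M f := by
  refine Matrix.diagonal_transvection_induction_of_det_ne_zero (fun M => ∀ f, Good M f) M hM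
    (fun D _ f => good_diag D f) ?_ ?_
  · rintro ⟨i, j, hij, c⟩ f
    change Good (Matrix.transvection i j c) f
    fin_cases i <;> fin_cases j
    · exact absurd rfl hij
    · exact good_01 f c
    · exact good_02 f c
    · exact good_10 f c
    · exact absurd rfl hij
    · exact good_12 f c
    · exact good_20 f c
    · exact good_21 f c
    · exact absurd rfl hij
  · intro A B _ _ hA hB f
    obtain ⟨g, hg, hg4, hg6⟩ := hA f
    obtain ⟨h, hh, hh4, hh6⟩ := hB g
    refine ⟨h, fun v => ?_, ?_, ?_⟩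
    · rw [hh v, hg, Matrix.mulVec_mulVec]
    · rw [hh4, hg4, Matrix.det_mul]
      ring
    · rw [hh6, hg6, Matrix.det_mul]
      ring

/-- [Z1] -/
theorem stmtCov : StmtCov := by
  intro k _ _ f g M hM hg
  obtain ⟨g', hg', h4, h6⟩ := good_all M hM f
  have e : g = g' := tv_inj fun v => by rw [hg v, hg' v]
  rw [e]
  exact ⟨h4, h6⟩

end Vale.Agent.P297.Z3
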