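import Vale.Agent.P297.H572.Z3.JacN
import Vale.Agent.P297.H572.Z3.Cov
import Vale.Agent.P297.H424.Z3.Normal
import Vale.Agent.P297.H124.Lin

/-!
Families of plane cubics over the line whose Jacobian has two rational quadratic twists.
-/

set_option linter.unusedSectionVars false

open IntermediateField Polynomial WeierstrassCurve WeierstrassCurve.Affine Matrix

namespace Vale.Agent.P297.Z3

open Vale.Agent.P297 Vale.Agent.P297.Gen Vale.Agent.P297.H839 Vale.Agent.P297.H516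
open Vale.Agent.P297.H729 Vale.Agent.P297.H600

section

variable {T N : Type} [Field T] [Algebra ℂ T] [Field N] [Algebra ℂ N]
variable {u : Fin 3 → N} {η X Y : T} {f : Fin 10 → N} {A A' : Matrix (Fin 3) (Fin 3) N} {a b : N}
variable [IsAlgClosed N] [DecidableEq N] [CharZero N]

theorem two_m (hL : StmtLin) (C : Cub u η X Y f A A' a b)
    (p₀ p₁ p₂ q₀ q₁ q₂ q₃ : ℂ) (hc₁ : p₂ ≠ 0 ∨ q₃ ≠ 0)
    (hc₂ : p₀ + p₁ + p₂ ≠ 0 ∨ q₀ + q₁ + q₂ + q₃ ≠ 0)
    (ha : a = algebraMap ℂ N p₀ + algebraMap ℂ N p₁ * (1 - u 0 ^ 2) +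
      algebraMap ℂ N p₂ * (1 - u 0 ^ 2) ^ 2)
    (hb : b = algebraMap ℂ N q₀ + algebraMap ℂ N q₁ * (1 - u 0 ^ 2) +
      algebraMap ℂ N q₂ * (1 - u 0 ^ 2) ^ 2 + algebraMap ℂ N q₃ * (1 - u 0 ^ 2) ^ 3)
    {e : N} (he : e = u 0 ∨ e = -u 0) {P : (wc a b).toAffine.Point}
    (hP : ¬ InF (cl0 {u 0}) P) {φ : T →ₐ[ℂ] N} (hφ : At η X Y A φ e P) :
    (2 : ℤ) • ((tors a b).card • Finsupp.single φ (1 : ℤ)) ∈ stableRelations T N := by
  classical
  set κ := cl0 ({u 0} : Set N) with hκ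
  have hκc : Closed κ := closed_cl0 _
  have haκ : a ∈ κ := C.mema
  have hbκ : b ∈ κ := C.memb
  obtain ⟨emb, hE⟩ := exists_isEmb C
  -- the first point
  obtain ⟨x, y, h, hPx⟩ : ∃ x y, ∃ h, P = Point.some x y h := by
    rcases P with (_ | ⟨x, y, h⟩)
    · exact absurd (inF_zero _) hP
    · exact ⟨x, y, h, rfl⟩
  have hx : x ∉ κ := by
    rwa [hPx, inF_iff hκc haκ hbκ] at hP
  obtain ⟨x₁, hx₁⟩ := exists_notMem C.big x
  have hx₁κ : x₁ ∉ κ := fun h0 => hx₁ (le_clo _ _ h0)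
  obtain ⟨y₁, hy₁⟩ : ∃ y₁ : N, y₁ ^ 2 = x₁ ^ 3 + a * x₁ + b := by
    obtain ⟨w, hw⟩ := IsAlgClosed.exists_pow_nat_eq (x₁ ^ 3 + a * x₁ + b) (Nat.succ_pos 1)
    exact ⟨w, hw⟩
  have h₁ : (wc a b).toAffine.Nonsingular x₁ y₁ := wc_nonsing C.disc hy₁
  set P₁ : (wc a b).toAffine.Point := Point.some x₁ y₁ h₁ with hP₁
  set P₂ : (wc a b).toAffine.Point := -(P₁ + P) with hP₂
  have hP₁κ : ¬ InF κ P₁ := by
    rw [hP₁, inF_iff hκc haκ hbκ]
    exact hx₁κ
  have hP₁M : InF (clo κ {x₁}) P₁ :=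
    (inF_iff (closed_clo _ _) (le_clo _ _ haκ) (le_clo _ _ hbκ) h₁).2 (mem_clo_self _ _)
  have hP₂M : ¬ InF (clo κ {x₁}) P₂ := by
    intro h0
    have h2 : P = -P₂ - P₁ := by
      rw [hP₂]
      abel
    have h3 : InF (clo κ {x₁}) P := by
      rw [h2]
      exact (h0.neg).sub (le_clo _ _ haκ) hP₁M
    rw [hPx, inF_iff (closed_clo _ _) (le_clo _ _ haκ) (le_clo _ _ hbκ)] at h3
    exact hx₁ (exchange hκc h3 hx)
  have hP₂κ : ¬ InF κ P₂ := fun h0 => hP₂M (h0.mono (le_clo _ _))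
  -- the relations
  have key : ∀ t ∈ tors a b, Finsupp.single (emb e (P₁ + t)) (1 : ℤ) +
      (Finsupp.single (emb e (P₂ + -t)) 1 + Finsupp.single φ 1) ∈ stableRelations T N := by
    intro t ht
    rw [mem_tors] at ht
    have ht' : (3 : ℕ) • (-t) = 0 := by rw [smul_neg, ht, neg_zero]
    have g₁ := gen_add C hP₁κ ht
    have g₂ := gen_add C hP₂κ ht'
    obtain ⟨x', y', h', hx'⟩ : ∃ x' y', ∃ h', P₁ + t = Point.some x' y' h' := by
      generalize P₁ + t = R at g₁ ⊢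
      rcases R with (_ | ⟨x', y', h'⟩)
      · exact absurd (inF_zero _) g₁
      · exact ⟨x', y', h', rfl⟩
    have htκ : InF κ t := tors_inF hκc haκ hbκ ht
    have hx'M : x' ∈ clo κ {x₁} := by
      have h3 : InF (clo κ {x₁}) (P₁ + t) := hP₁M.add (le_clo _ _ haκ) (htκ.mono (le_clo _ _))
      rwa [hx', inF_iff (closed_clo _ _) (le_clo _ _ haκ) (le_clo _ _ hbκ)] at h3
    have hle : clo κ {x'} ≤ clo κ {x₁} := clo_single_le (closed_clo _ _) (le_clo _ _) hx'M
    have hx'κ : x' ∉ κ := by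
      rwa [hx', inF_iff hκc haκ hbκ] at g₁
    have hE₁ := hE e (P₁ + t) he g₁
    rw [hx'] at hE₁
    have hE₂ := hE e (P₂ + -t) he g₂
    have h5 : -(Point.some x' y' h' + (P₂ + -t)) = P := by
      rw [← hx', hP₂]
      abel
    have hφ' : At η X Y A φ e (-(Point.some x' y' h' + (P₂ + -t))) := by
      rw [h5]
      exact hφ
    have h6 := star C he hx'κ (P₂ := P₂ + -t) (fun h0 => hP₂M ?_) hE₁ hE₂ hφ'
    · rw [hx']
      exact h6
    · have h7 : P₂ = P₂ + -t + t := by abel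
      rw [h7]
      exact (h0.mono hle).add (le_clo _ _ haκ) (htκ.mono (le_clo _ _))
  have hsum := sum_mem key
  rw [Finset.sum_add_distrib, Finset.sum_add_distrib, Finset.sum_const] at hsum
  have himage : (tors a b).image (fun t => -t) = tors a b := by
    apply Finset.eq_of_subset_of_card_le
    · intro s hs
      obtain ⟨t, ht, rfl⟩ := Finset.mem_image.1 hs
      rw [mem_tors] at ht ⊢
      rw [smul_neg, ht, neg_zero]
    · rw [Finset.card_image_of_injective _ neg_injective]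
  have hneg : ∑ t ∈ tors a b, Finsupp.single (emb e (P₂ + -t)) (1 : ℤ) = nsum emb e P₂ := by
    unfold nsum
    conv_rhs => rw [← himage]
    rw [Finset.sum_image neg_injective.injOn]
  rw [hneg] at hsum
  have h2 := AddSubgroup.zsmul_mem _ hsum 2
  have n₁ := two_nsum hL C hE p₀ p₁ p₂ q₀ q₁ q₂ q₃ hc₁ hc₂ ha hb he hP₁κ
  have n₂ := two_nsum hL C hE p₀ p₁ p₂ q₀ q₁ q₂ q₃ hc₁ hc₂ ha hb he hP₂κ
  have h8 : (2 : ℤ) • ((tors a b).card • Finsupp.single φ (1 : ℤ)) =
      (2 : ℤ) • (∑ t ∈ tors a b, Finsupp.single (emb e (P₁ + t)) (1 : ℤ) +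
        (nsum emb e P₂ + (tors a b).card • Finsupp.single φ (1 : ℤ))) -
      ((2 : ℤ) • nsum emb e P₁ + (2 : ℤ) • nsum emb e P₂) := by
    rw [smul_add, smul_add]
    unfold nsum
    abel
  rw [h8]
  exact sub_mem h2 (add_mem n₁ n₂)

theorem eighteen (hL : StmtLin) (C : Cub u η X Y f A A' a b)
    (p₀ p₁ p₂ q₀ q₁ q₂ q₃ : ℂ) (hc₁ : p₂ ≠ 0 ∨ q₃ ≠ 0)
    (hc₂ : p₀ + p₁ + p₂ ≠ 0 ∨ q₀ + q₁ + q₂ + q₃ ≠ 0)
    (ha : a = algebraMap ℂ N p₀ + algebraMap ℂ N p₁ * (1 - u 0 ^ 2) +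
      algebraMap ℂ N p₂ * (1 - u 0 ^ 2) ^ 2)
    (hb : b = algebraMap ℂ N q₀ + algebraMap ℂ N q₁ * (1 - u 0 ^ 2) +
      algebraMap ℂ N q₂ * (1 - u 0 ^ 2) ^ 2 + algebraMap ℂ N q₃ * (1 - u 0 ^ 2) ^ 3)
    {φ : T →ₐ[ℂ] N} (hφ : φ η = u 0) (hX : φ X ∉ cl0 {u 0}) :
    Finsupp.single φ (18 : ℤ) ∈ stableRelations T N := by
  obtain ⟨P, hP⟩ := exists_at C hφ (Or.inl rfl) hX
  have hgen : ¬ InF (cl0 {u 0}) P := by
    intro h0
    obtain ⟨-, x, y, h, r, rfl, hr⟩ := hP
    obtain ⟨h1, h2⟩ := h0 x y h rfl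
    exact hX (X_mem C le_rfl hr h1 h2).1
  have h1 := two_m hL C p₀ p₁ p₂ q₀ q₁ q₂ q₃ hc₁ hc₂ ha hb (Or.inl rfl) hgen hP
  obtain ⟨n, hn⟩ := card_tors (a := a) (b := b)
  have hle := card_tors_le (a := a) (b := b)
  rw [hn] at h1 hle
  have hn2 : n ≤ 2 := by
    by_contra h0
    have h3 : 3 ^ 3 ≤ 3 ^ n := Nat.pow_le_pow_right (by norm_num) (by omega)
    omega
  have h2 := AddSubgroup.zsmul_mem _ h1 (3 ^ (2 - n) : ℤ)
  have h3 : (3 ^ (2 - n) : ℤ) • ((2 : ℤ) • ((3 ^ n : ℕ) • Finsupp.single φ (1 : ℤ))) =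
      Finsupp.single φ (18 : ℤ) := by
    rw [← natCast_zsmul, Finsupp.smul_single, Finsupp.smul_single, Finsupp.smul_single]
    congr 1
    simp only [smul_eq_mul, mul_one]
    push_cast
    have h4 : (3 : ℤ) ^ (2 - n) * 3 ^ n = 9 := by
      rw [← pow_add, Nat.sub_add_cancel hn2]
      norm_num
    linear_combination 2 * h4
  rw [← h3]
  exact h2

end

section

/-- the invariants commute with ring homomorphisms -/
theorem map_c4 {R S : Type} [CommRing R] [CommRing S] (σ : R →+* S) (f : Fin 10 → R) :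
    c4 (fun i => σ (f i)) = σ (c4 f) := by
  simp only [c4, map_add, map_sub, map_mul, map_pow, map_ofNat]

theorem map_c6 {R S : Type} [CommRing R] [CommRing S] (σ : R →+* S) (f : Fin 10 → R) :
    c6 (fun i => σ (f i)) = σ (c6 f) := by
  simp only [c6, map_add, map_sub, map_mul, map_pow, map_ofNat, map_neg]

theorem map_tv {R S : Type} [CommRing R] [CommRing S] (σ : R →+* S) (f : Fin 10 → R)
    (p : Fin 3 → R) : tv (fun i => σ (f i)) (fun i => σ (p i)) = σ (tv f p) := by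
  simp only [tv, tc, map_add, map_mul, map_pow]

theorem map_dc {R S : Type} [CommRing R] [CommRing S] (σ : R →+* S) (f : Fin 10 → R)
    (p q : Fin 3 → R) :
    dc (fun i => σ (f i)) (fun i => σ (p i)) (fun i => σ (q i)) = σ (dc f p q) := by
  simp only [dc, map_add, map_mul, map_pow, map_ofNat]

theorem map_hb {R S : Type} [CommRing R] [CommRing S] (σ : R →+* S) (f : Fin 10 → R)
    (p q r : Fin 3 → R) :
    hb (fun i => σ (f i)) (fun i => σ (p i)) (fun i => σ (q i)) (fun i => σ (r i)) =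
      σ (hb f p q r) := by
  simp only [hb, map_add, map_mul, map_ofNat]

theorem map_sc {R S : Type} [CommRing R] [CommRing S] (σ : R →+* S) (f : Fin 10 → R)
    (p q r : Fin 3 → R) (i : Fin 10) :
    sc (fun i => σ (f i)) (fun i => σ (p i)) (fun i => σ (q i)) (fun i => σ (r i)) i =
      σ (sc f p q r i) := by
  fin_cases i
  · exact map_tv σ f p
  · exact map_dc σ f p q
  · exact map_dc σ f p r
  · exact map_dc σ f q p
  · exact map_hb σ f p q r
  · exact map_dc σ f r p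
  · exact map_tv σ f q
  · exact map_dc σ f q r
  · exact map_dc σ f r q
  · exact map_tv σ f r

theorem map_wf {R S : Type} [CommRing R] [CommRing S] (σ : R →+* S) (a b : R) :
    (fun i => σ (wf a b i)) = wf (σ a) (σ b) := by
  funext i
  fin_cases i
  · exact (map_neg σ 1).trans (congrArg Neg.neg (map_one σ))
  · exact map_zero σ
  · exact map_zero σ
  · exact map_zero σ
  · exact map_zero σ
  · exact map_neg σ a
  · exact map_zero σ
  · exact map_one σ
  · exact map_zero σ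
  · exact map_neg σ b

/-- a matrix identity extends to a larger field -/
theorem extend_tr {k K : Type} [Field k] [CharZero k] [Field K] (σ : k →+* K) (f : Fin 10 → k)
    (a b : k) (A : Matrix (Fin 3) (Fin 3) k)
    (h : ∀ v : Fin 3 → k, tv (wf a b) (A.mulVec v) = A.det * tv f v) (v : Fin 3 → K) :
    tv (wf (σ a) (σ b)) ((A.map σ).mulVec v) = (A.map σ).det * tv (fun i => σ (f i)) v := by
  set p : Fin 3 → k := fun i => A i 0 with hp
  set q : Fin 3 → k := fun i => A i 1 with hq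
  set r : Fin 3 → k := fun i => A i 2 with hr
  have hA : A = cm p q r := by
    ext i j
    fin_cases i <;> fin_cases j <;> rfl
  have h1 : sc (wf a b) p q r = fun i => A.det * f i := by
    apply tv_inj
    intro v
    rw [isSub_cm (wf a b) p q r v, ← hA, h v]
    simp only [tv, tc]
    ring
  have h2 : A.map σ = cm (fun i => σ (p i)) (fun i => σ (q i)) (fun i => σ (r i)) := by
    ext i j
    fin_cases i <;> fin_cases j <;> rfl
  have h3 := isSub_cm (wf (σ a) (σ b)) (fun i => σ (p i)) (fun i => σ (q i)) (fun i => σ (r i)) v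
  rw [← h2] at h3
  rw [← h3]
  have h4 : sc (wf (σ a) (σ b)) (fun i => σ (p i)) (fun i => σ (q i)) (fun i => σ (r i)) =
      fun i => σ A.det * σ (f i) := by
    funext i
    rw [← map_wf, map_sc, h1, map_mul]
  have h5 : (A.map σ).det = σ A.det := (RingHom.map_det σ A).symm
  rw [h4, h5]
  simp only [tv, tc]
  ring

theorem isAlgClosed_of_closed {N : Type} [Field N] [Algebra ℂ N] [IsAlgClosed N]
    {M : IntermediateField ℂ N} (hM : Closed M) : IsAlgClosed M := by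
  refine IsAlgClosed.of_exists_root _ fun p _ hirr => ?_
  obtain ⟨r, hr⟩ := exists_root_mem M hM p hirr.natDegree_pos
  exact ⟨r, hr⟩

/-- **Families of plane cubics**, with a factor. -/
theorem cubic_stable_lam (lam : ℂ[X]) (hlam : lam ≠ 0) (F : Fin 10 → ℂ[X]) (p₀ p₁ p₂ q₀ q₁ q₂ q₃ : ℂ) {T N : Type} [Field T]
    [Algebra ℂ T] [Field N] [Algebra ℂ N] [IsAlgClosed N] (η X Y : T)
    (htop : IntermediateField.adjoin ℂ {η, X, Y} = ⊤)
    (hF : tc (fun i => aeval (1 - η ^ 2) (F i)) X Y 1 = 0)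
    (hc4 : c4 F = C (-48) * lam ^ 4 * (C p₀ + C p₁ * Polynomial.X + C p₂ * Polynomial.X ^ 2))
    (hc6 : c6 F = C (-864) * lam ^ 6 * (C q₀ + C q₁ * Polynomial.X + C q₂ * Polynomial.X ^ 2 +
      C q₃ * Polynomial.X ^ 3))
    (hne : c4 F ^ 3 ≠ c6 F ^ 2) (h₁ : p₂ ≠ 0 ∨ q₃ ≠ 0)
    (h₂ : p₀ + p₁ + p₂ ≠ 0 ∨ q₀ + q₁ + q₂ + q₃ ≠ 0) (φ : T →ₐ[ℂ] N) (t : N)
    (hb : Big N ![φ η, φ X, t]) : Finsupp.single φ (18 : ℤ) ∈ stableRelations T N := by
  classical
  have : CharZero N := charZero_of_injective_algebraMap (algebraMap ℂ N).injective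
  set u : Fin 3 → N := ![φ η, φ X, t] with hu
  have hu0 : u 0 = φ η := rfl
  set κ := cl0 ({u 0} : Set N) with hκ
  have hκc : Closed κ := closed_cl0 _
  have : IsAlgClosed κ := isAlgClosed_of_closed hκc
  have : CharZero κ := charZero_of_injective_algebraMap (algebraMap ℂ κ).injective
  have heκ : u 0 ∈ κ := subset_cl0 _ rfl
  let e : κ := ⟨u 0, heκ⟩
  let ev : ℂ[X] →ₐ[ℂ] κ := aeval (1 - e ^ 2)
  let f₀ : Fin 10 → κ := fun i => (ev lam)⁻¹ * ev (F i)
  have hev4 : c4 f₀ = (ev lam)⁻¹ ^ 4 * ev (c4 F) :=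
    (c4_smul _ _).trans (congrArg _ (map_c4 ev.toRingHom F))
  have hev6 : c6 f₀ = (ev lam)⁻¹ ^ 6 * ev (c6 F) :=
    (c6_smul _ _).trans (congrArg _ (map_c6 ev.toRingHom F))
  have htr : Transcendental ℂ (1 - e ^ 2) := by
    intro halg
    apply hb.zero
    have h1 : IsAlgebraic ℂ (1 - (1 - e ^ 2)) := (isAlgebraic_one).sub halg
    rw [sub_sub_cancel] at h1
    have h2 : IsAlgebraic ℂ e := IsAlgebraic.of_pow two_pos h1
    exact h2.algebraMap (A := N)
  have hinj : Function.Injective ev := transcendental_iff_injective.1 htr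
  have hlam0 : ev lam ≠ 0 := fun h => hlam (hinj (h.trans (map_zero ev).symm))
  have hne₀ : c4 f₀ ^ 3 ≠ c6 f₀ ^ 2 := by
    rw [hev4, hev6]
    intro h
    apply hne
    apply hinj
    rw [map_pow, map_pow]
    apply mul_left_cancel₀ (pow_ne_zero 12 (inv_ne_zero hlam0))
    linear_combination h
  obtain ⟨A₀, hdet₀, hA₀⟩ := stmtNormal stmtCov κ f₀ hne₀
  set σ : κ →+* N := algebraMap κ N with hσ
  have hσmem : ∀ z : κ, σ z ∈ κ := fun z => z.2
  set a₀ : κ := -c4 f₀ / 48 with ha₀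
  set b₀ : κ := -c6 f₀ / 864 with hb₀
  have hdisc₀ : 4 * a₀ ^ 3 + 27 * b₀ ^ 2 ≠ 0 := by
    intro h0
    apply hne₀
    have k1 : c4 f₀ = -(48 * a₀) := by
      rw [ha₀, mul_div_cancel₀ _ (by norm_num)]
      ring
    have k2 : c6 f₀ = -(864 * b₀) := by
      rw [hb₀, mul_div_cancel₀ _ (by norm_num)]
      ring
    rw [k1, k2]
    linear_combination (-27648) * h0
  -- the data
  have hfix : ∀ g : N ≃ₐ[ℂ] N, g (u 0) = u 0 ∨ g (u 0) = -u 0 → ∀ p : ℂ[X],
      g (σ (ev p)) = σ (ev p) := by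
    intro g hg p
    have h1 : (g.toAlgHom.comp κ.val).comp ev = κ.val.comp ev := by
      apply Polynomial.algHom_ext
      have h2 : ev Polynomial.X = 1 - e ^ 2 := aeval_X _
      change g (σ (ev Polynomial.X)) = σ (ev Polynomial.X)
      rw [h2, map_sub, map_sub, map_one, map_one, map_pow, map_pow]
      have h3 : σ e = u 0 := rfl
      rw [h3]
      rcases hg with h | h
      · rw [h]
      · rw [h, neg_sq]
    exact DFunLike.congr_fun h1 p
  have hσa : σ a₀ = -((σ (ev lam))⁻¹ ^ 4 * σ (ev (c4 F))) / 48 := by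
    rw [ha₀, hev4, map_div₀, map_neg, map_ofNat, map_mul, map_pow, map_inv₀]
  have hσb : σ b₀ = -((σ (ev lam))⁻¹ ^ 6 * σ (ev (c6 F))) / 864 := by
    rw [hb₀, hev6, map_div₀, map_neg, map_ofNat, map_mul, map_pow, map_inv₀]
  have hmul : (A₀.map σ) * (A₀⁻¹.map σ) = 1 := by
    rw [← Matrix.map_mul, Matrix.mul_nonsing_inv _ (isUnit_iff_ne_zero.2 hdet₀)]
    exact Matrix.map_one _ (map_zero σ) (map_one σ)
  have hmul' : (A₀⁻¹.map σ) * (A₀.map σ) = 1 := by
    rw [← Matrix.map_mul, Matrix.nonsing_inv_mul _ (isUnit_iff_ne_zero.2 hdet₀)]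
    exact Matrix.map_one _ (map_zero σ) (map_one σ)
  have Cb : Cub u η X Y (fun i => σ (f₀ i)) (A₀.map σ) (A₀⁻¹.map σ) (σ a₀) (σ b₀) :=
    { big := hb
      gen := by
        intro ψ ψ' h1 h2 h3
        apply AlgHom.ext
        intro z
        have hz : z ∈ IntermediateField.adjoin ℂ {η, X, Y} := by
          rw [htop]
          trivial
        induction hz using IntermediateField.adjoin_induction with
        | mem x hx =>
          rcases hx with rfl | rfl | rfl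
          · exact h1
          · exact h2
          · exact h3
        | algebraMap r => rw [AlgHom.commutes, AlgHom.commutes]
        | add x y _ _ h1 h2 => rw [map_add, map_add, h1, h2]
        | mul x y _ _ h1 h2 => rw [map_mul, map_mul, h1, h2]
        | inv x _ h1 => rw [map_inv₀, map_inv₀, h1]
      eq := by
        intro ψ hψ
        have h1 := congrArg ψ hF
        have h2 : ∀ i, ψ (aeval (1 - η ^ 2) (F i)) = σ (ev (F i)) := by
          intro i
          have h3 : (ψ.comp (aeval (1 - η ^ 2))) = κ.val.comp ev := by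
            apply Polynomial.algHom_ext
            change ψ (aeval (1 - η ^ 2) Polynomial.X) = σ (ev Polynomial.X)
            have h4 : ev Polynomial.X = 1 - e ^ 2 := aeval_X _
            rw [aeval_X, h4, map_sub, map_sub, map_one, map_one, map_pow, map_pow]
            have h5 : σ e = u 0 := rfl
            rw [h5]
            rcases hψ with h | h
            · rw [h]
            · rw [h, neg_sq]
          exact DFunLike.congr_fun h3 (F i)
        have h6 : ∀ i, σ (f₀ i) = (σ (ev lam))⁻¹ * σ (ev (F i)) := by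
          intro i
          rw [← map_inv₀, ← map_mul]
        unfold tc at h1
        simp only [map_add, map_mul, map_pow, map_one, map_zero, h2] at h1
        simp only [h6]
        unfold tv vec tc
        change (σ (ev lam))⁻¹ * σ (ev (F 0)) * ψ X ^ 3 +
          (σ (ev lam))⁻¹ * σ (ev (F 1)) * ψ X ^ 2 * ψ Y +
          (σ (ev lam))⁻¹ * σ (ev (F 2)) * ψ X ^ 2 * 1 +
          (σ (ev lam))⁻¹ * σ (ev (F 3)) * ψ X * ψ Y ^ 2 +
          (σ (ev lam))⁻¹ * σ (ev (F 4)) * ψ X * ψ Y * 1 +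
          (σ (ev lam))⁻¹ * σ (ev (F 5)) * ψ X * 1 ^ 2 +
          (σ (ev lam))⁻¹ * σ (ev (F 6)) * ψ Y ^ 3 +
          (σ (ev lam))⁻¹ * σ (ev (F 7)) * ψ Y ^ 2 * 1 +
          (σ (ev lam))⁻¹ * σ (ev (F 8)) * ψ Y * 1 ^ 2 +
          (σ (ev lam))⁻¹ * σ (ev (F 9)) * 1 ^ 3 = 0
        linear_combination (σ (ev lam))⁻¹ * h1
      fixf := by
        intro g hg i
        change g (σ ((ev lam)⁻¹ * ev (F i))) = σ ((ev lam)⁻¹ * ev (F i))
        rw [map_mul, map_inv₀, map_mul, map_inv₀, hfix g hg, hfix g hg]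
      fixa := by
        intro g hg
        rw [hσa, map_div₀, map_neg, map_ofNat, map_mul, map_pow, map_inv₀, hfix g hg,
          hfix g hg]
      fixb := by
        intro g hg
        rw [hσb, map_div₀, map_neg, map_ofNat, map_mul, map_pow, map_inv₀, hfix g hg,
          hfix g hg]
      mema := hσmem _
      memb := hσmem _
      memA := fun i j => hσmem _
      memA' := fun i j => hσmem _
      mul := hmul
      mul' := hmul'
      tr := extend_tr σ f₀ a₀ b₀ A₀ hA₀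
      disc := by
        intro h0
        apply hdisc₀
        apply σ.injective
        rw [map_zero, ← h0]
        simp only [map_add, map_mul, map_pow, map_ofNat]
      ex := by
        refine ⟨φ, rfl, hb.one⟩ }
  refine eighteen stmtLin Cb p₀ p₁ p₂ q₀ q₁ q₂ q₃ h₁ h₂ ?_ ?_ rfl hb.one
  · rw [hσa, hc4]
    have h3 : ∀ c : ℂ, σ (ev (C c)) = algebraMap ℂ N c := by
      intro c
      have h4 : ev (C c) = algebraMap ℂ κ c := aeval_C _ c
      rw [h4]
      rfl
    have h4 : σ (ev Polynomial.X) = 1 - u 0 ^ 2 := by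
      have h5 : ev Polynomial.X = 1 - e ^ 2 := aeval_X _
      rw [h5]
      rfl
    have hσlam : σ (ev lam) ≠ 0 := (map_ne_zero σ).2 hlam0
    simp only [map_add, map_mul, map_pow, h3, h4, map_neg, map_ofNat]
    generalize σ (ev lam) = w at hσlam ⊢
    field_simp
  · rw [hσb, hc6]
    have h3 : ∀ c : ℂ, σ (ev (C c)) = algebraMap ℂ N c := by
      intro c
      have h4 : ev (C c) = algebraMap ℂ κ c := aeval_C _ c
      rw [h4]
      rfl
    have h4 : σ (ev Polynomial.X) = 1 - u 0 ^ 2 := by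
      have h5 : ev Polynomial.X = 1 - e ^ 2 := aeval_X _
      rw [h5]
      rfl
    have hσlam : σ (ev lam) ≠ 0 := (map_ne_zero σ).2 hlam0
    simp only [map_add, map_mul, map_pow, h3, h4, map_neg, map_ofNat]
    generalize σ (ev lam) = w at hσlam ⊢
    field_simp

/-- **Families of plane cubics.** -/
theorem cubic_stable (F : Fin 10 → ℂ[X]) (p₀ p₁ p₂ q₀ q₁ q₂ q₃ : ℂ) {T N : Type} [Field T]
    [Algebra ℂ T] [Field N] [Algebra ℂ N] [IsAlgClosed N] (η X Y : T)
    (htop : IntermediateField.adjoin ℂ {η, X, Y} = ⊤)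
    (hF : tc (fun i => aeval (1 - η ^ 2) (F i)) X Y 1 = 0)
    (hc4 : c4 F = C (-48) * (C p₀ + C p₁ * Polynomial.X + C p₂ * Polynomial.X ^ 2))
    (hc6 : c6 F = C (-864) * (C q₀ + C q₁ * Polynomial.X + C q₂ * Polynomial.X ^ 2 +
      C q₃ * Polynomial.X ^ 3))
    (hne : c4 F ^ 3 ≠ c6 F ^ 2) (h₁ : p₂ ≠ 0 ∨ q₃ ≠ 0)
    (h₂ : p₀ + p₁ + p₂ ≠ 0 ∨ q₀ + q₁ + q₂ + q₃ ≠ 0) (φ : T →ₐ[ℂ] N) (t : N)
    (hb : Big N ![φ η, φ X, t]) : Finsupp.single φ (18 : ℤ) ∈ stableRelations T N :=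
  cubic_stable_lam 1 one_ne_zero F p₀ p₁ p₂ q₀ q₁ q₂ q₃ η X Y htop hF
    (by rw [one_pow, mul_one]; exact hc4) (by rw [one_pow, mul_one]; exact hc6) hne h₁ h₂ φ t hb

end

end Vale.Agent.P297.Z3
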