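import Vale.Agent.P297.H572.Z3.Mem
import Vale.Agent.P297.H600.Stab

/-!
Embeddings of the function field of a family of plane cubics attached to points of the Weierstrass
form.
-/

set_option linter.unusedSectionVars false

open IntermediateField Polynomial WeierstrassCurve WeierstrassCurve.Affine Matrix

namespace Vale.Agent.P297.Z3

open Vale.Agent.P297 Vale.Agent.P297.Gen Vale.Agent.P297.H839 Vale.Agent.P297.H516

section

variable {T N : Type} [Field T] [Algebra ℂ T] [Field N] [Algebra ℂ N]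

/-- the vector of an embedding -/
def vec (X Y : T) (ψ : T →ₐ[ℂ] N) : Fin 3 → N := ![ψ X, ψ Y, 1]

/-- The data: a family of plane cubics over the line, an algebraically closed field of
transcendence degree three, and a linear isomorphism with the Weierstrass form over the closure of
the field of constants of the generic member. -/
structure Cub (u : Fin 3 → N) (η X Y : T) (f : Fin 10 → N) (A A' : Matrix (Fin 3) (Fin 3) N)
    (a b : N) : Prop where
  big : Big N u
  gen : ∀ ψ ψ' : T →ₐ[ℂ] N, ψ η = ψ' η → ψ X = ψ' X → ψ Y = ψ' Y → ψ = ψ'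
  eq : ∀ ψ : T →ₐ[ℂ] N, ψ η = u 0 ∨ ψ η = -u 0 → tv f (vec X Y ψ) = 0
  fixf : ∀ g : N ≃ₐ[ℂ] N, g (u 0) = u 0 ∨ g (u 0) = -u 0 → ∀ i, g (f i) = f i
  fixa : ∀ g : N ≃ₐ[ℂ] N, g (u 0) = u 0 ∨ g (u 0) = -u 0 → g a = a
  fixb : ∀ g : N ≃ₐ[ℂ] N, g (u 0) = u 0 ∨ g (u 0) = -u 0 → g b = b
  mema : a ∈ cl0 {u 0}
  memb : b ∈ cl0 {u 0}
  memA : ∀ i j, A i j ∈ cl0 {u 0}
  memA' : ∀ i j, A' i j ∈ cl0 {u 0}
  mul : A * A' = 1
  mul' : A' * A = 1
  tr : ∀ v, tv (wf a b) (A.mulVec v) = A.det * tv f v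
  disc : 4 * a ^ 3 + 27 * b ^ 2 ≠ 0
  ex : ∃ φ : T →ₐ[ℂ] N, φ η = u 0 ∧ φ X ∉ cl0 {u 0}

variable {u : Fin 3 → N} {η X Y : T} {f : Fin 10 → N} {A A' : Matrix (Fin 3) (Fin 3) N} {a b : N}

/-- The embedding corresponds to the point. -/
def At (η X Y : T) (A : Matrix (Fin 3) (Fin 3) N) (ψ : T →ₐ[ℂ] N) (e : N)
    (P : (wc a b).toAffine.Point) : Prop :=
  ψ η = e ∧ ∃ x y h r, P = Point.some x y h ∧ A.mulVec (vec X Y ψ) = ![r * x, r * y, r]

theorem mulVec_inv (C : Cub u η X Y f A A' a b) (v : Fin 3 → N) :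
    A'.mulVec (A.mulVec v) = v := by
  rw [mulVec_mulVec, C.mul', one_mulVec]

theorem Cub.det_ne (C : Cub u η X Y f A A' a b) : A.det ≠ 0 := by
  intro h
  have h1 := congrArg Matrix.det C.mul
  rw [det_mul, h, zero_mul, det_one] at h1
  exact zero_ne_one h1

theorem r_ne (C : Cub u η X Y f A A' a b) {ψ : T →ₐ[ℂ] N} {x y r : N}
    (h : A.mulVec (vec X Y ψ) = ![r * x, r * y, r]) : r ≠ 0 := by
  rintro rfl
  have h1 := mulVec_inv C (vec X Y ψ)
  rw [h, zero_mul, zero_mul] at h1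
  have h2 : (![0, 0, 0] : Fin 3 → N) = 0 := by
    funext i
    fin_cases i <;> rfl
  rw [h2, mulVec_zero] at h1
  have h3 := congrFun h1 2
  exact zero_ne_one h3

theorem At.uniq (C : Cub u η X Y f A A' a b) {ψ ψ' : T →ₐ[ℂ] N} {e : N}
    {P : (wc a b).toAffine.Point} (h : At η X Y A ψ e P) (h' : At η X Y A ψ' e P) : ψ = ψ' := by
  obtain ⟨h1, x, y, hxy, r, hP, hr⟩ := h
  obtain ⟨h1', x', y', hxy', r', hP', hr'⟩ := h'
  rw [hP] at hP'
  obtain ⟨rfl, rfl⟩ := Point.some.inj hP'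
  have h2 : A.mulVec (r' • vec X Y ψ) = A.mulVec (r • vec X Y ψ') := by
    rw [mulVec_smul, mulVec_smul, hr, hr']
    funext i
    fin_cases i
    · change r' * (r * x) = r * (r' * x)
      ring
    · change r' * (r * y) = r * (r' * y)
      ring
    · change r' * r = r * r'
      ring
  have h3 := congrArg A'.mulVec h2
  rw [mulVec_inv C, mulVec_inv C] at h3
  have h4 : r' * 1 = r * 1 := congrFun h3 2
  rw [mul_one, mul_one] at h4
  subst h4
  have hr0 := r_ne C hr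
  refine C.gen ψ ψ' (h1.trans h1'.symm) ?_ ?_
  · exact mul_left_cancel₀ hr0 (congrFun h3 0)
  · exact mul_left_cancel₀ hr0 (congrFun h3 1)

theorem At.inj (C : Cub u η X Y f A A' a b) {ψ : T →ₐ[ℂ] N} {e : N}
    {P P' : (wc a b).toAffine.Point} (h : At η X Y A ψ e P) (h' : At η X Y A ψ e P') :
    P = P' := by
  obtain ⟨h1, x, y, hxy, r, hP, hr⟩ := h
  obtain ⟨h1', x', y', hxy', r', hP', hr'⟩ := h'
  have hr0 := r_ne C hr
  rw [hr] at hr'
  have h2 : r = r' := congrFun hr' 2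
  subst h2
  have h3 : x = x' := mul_left_cancel₀ hr0 (congrFun hr' 0)
  have h4 : y = y' := mul_left_cancel₀ hr0 (congrFun hr' 1)
  subst h3 h4
  rw [hP, hP']

/-- a linear relation for the embedding gives a linear relation for the point -/
theorem At.row (C : Cub u η X Y f A A' a b) {M : IntermediateField ℂ N} (hM : Closed M)
    (hκ : cl0 {u 0} ≤ M) {ψ : T →ₐ[ℂ] N} {x y r : N}
    (h : A.mulVec (vec X Y ψ) = ![r * x, r * y, r]) (hxy : y ^ 2 = x ^ 3 + a * x + b)
    (c : Fin 3 → N) (hc : ∀ i, c i ∈ M) (hc0 : c ≠ 0) (hcv : c ⬝ᵥ vec X Y ψ = 0) : x ∈ M := by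
  have hr0 := r_ne C h
  have h1 : (c ᵥ* A') ⬝ᵥ (![r * x, r * y, r]) = 0 := by
    rw [← h, ← dotProduct_mulVec, mulVec_inv C, hcv]
  have hd : ∀ i, (c ᵥ* A') i ∈ M := by
    intro i
    simp only [vecMul, dotProduct]
    exact sum_mem fun j _ => mul_mem (hc j) (hκ (C.memA' j i))
  have h2 : (c ᵥ* A') 0 * x + (c ᵥ* A') 1 * y + (c ᵥ* A') 2 = 0 := by
    apply mul_left_cancel₀ hr0
    rw [mul_zero, ← h1]
    simp only [dotProduct, Fin.sum_univ_three]
    change _ = (c ᵥ* A') 0 * (r * x) + (c ᵥ* A') 1 * (r * y) + (c ᵥ* A') 2 * r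
    ring
  refine line_mem hM (hκ C.mema) (hκ C.memb) hxy (hd 0) (hd 1) (hd 2) ?_ h2
  by_contra hcon
  rw [not_or, not_not, not_not] at hcon
  obtain ⟨h3, h4⟩ := hcon
  rw [h3, h4, zero_mul, zero_mul, zero_add, zero_add] at h2
  apply hc0
  have h5 : c ᵥ* A' = 0 := by
    funext i
    fin_cases i
    · exact h3
    · exact h4
    · exact h2
  have h6 : c ᵥ* (A' * A) = 0 := by
    rw [← vecMul_vecMul, h5, zero_vecMul]
  rwa [C.mul', vecMul_one] at h6

theorem mem_of_X (C : Cub u η X Y f A A' a b) {M : IntermediateField ℂ N} (hM : Closed M)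
    (hκ : cl0 {u 0} ≤ M) {ψ : T →ₐ[ℂ] N} {x y r : N}
    (h : A.mulVec (vec X Y ψ) = ![r * x, r * y, r]) (hxy : y ^ 2 = x ^ 3 + a * x + b)
    (hX : ψ X ∈ M) : x ∈ M := by
  refine At.row C hM hκ h hxy ![-1, 0, ψ X] ?_ ?_ ?_
  · intro i
    fin_cases i
    · exact neg_mem (one_mem M)
    · exact zero_mem M
    · exact hX
  · intro h0
    have h1 : (-1 : N) = 0 := congrFun h0 0
    exact one_ne_zero (neg_eq_zero.1 h1)
  · simp only [dotProduct, Fin.sum_univ_three]
    change -1 * ψ X + 0 * ψ Y + ψ X * 1 = 0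
    ring

theorem X_mem (C : Cub u η X Y f A A' a b) {M : IntermediateField ℂ N}
    (hκ : cl0 {u 0} ≤ M) {ψ : T →ₐ[ℂ] N} {x y r : N}
    (h : A.mulVec (vec X Y ψ) = ![r * x, r * y, r]) (hx : x ∈ M) (hy : y ∈ M) :
    ψ X ∈ M ∧ ψ Y ∈ M := by
  have h1 := mulVec_inv C (vec X Y ψ)
  have h2 : A'.mulVec (![r * x, r * y, r]) = r • A'.mulVec ![x, y, 1] := by
    rw [← mulVec_smul]
    congr 1
    funext i
    fin_cases i
    · rfl
    · rfl
    · exact (mul_one r).symm
  rw [h, h2] at h1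
  have hw : ∀ i, A'.mulVec ![x, y, 1] i ∈ M := by
    intro i
    simp only [mulVec, dotProduct]
    refine sum_mem fun j _ => mul_mem (hκ (C.memA' i j)) ?_
    fin_cases j
    · exact hx
    · exact hy
    · exact one_mem M
  have h3 : r * A'.mulVec ![x, y, 1] 2 = 1 := congrFun h1 2
  have hw0 : A'.mulVec ![x, y, 1] 2 ≠ 0 := right_ne_zero_of_mul (h3 ▸ one_ne_zero)
  have hr : r ∈ M := by
    rw [eq_div_of_mul_eq hw0 h3]
    exact div_mem (one_mem M) (hw 2)
  refine ⟨?_, ?_⟩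
  · have h4 : r * A'.mulVec ![x, y, 1] 0 = ψ X := congrFun h1 0
    rw [← h4]
    exact mul_mem hr (hw 0)
  · have h4 : r * A'.mulVec ![x, y, 1] 1 = ψ Y := congrFun h1 1
    rw [← h4]
    exact mul_mem hr (hw 1)

theorem tv_wf (a b x y z : N) : tv (wf a b) ![x, y, z] =
    y ^ 2 * z - x ^ 3 - a * x * z ^ 2 - b * z ^ 3 := by
  unfold tv tc wf
  change -1 * x ^ 3 + 0 * x ^ 2 * y + 0 * x ^ 2 * z + 0 * x * y ^ 2 + 0 * x * y * z +
    -a * x * z ^ 2 + 0 * y ^ 3 + 1 * y ^ 2 * z + 0 * y * z ^ 2 + -b * z ^ 3 = _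
  ring

theorem vec_eta (v : Fin 3 → N) : v = ![v 0, v 1, v 2] := by
  funext i
  fin_cases i <;> rfl

/-- every generic embedding corresponds to a point -/
theorem exists_at [CharZero N] (C : Cub u η X Y f A A' a b) {ψ : T →ₐ[ℂ] N} {e : N} (hψ : ψ η = e)
    (he : e = u 0 ∨ e = -u 0) (hX : ψ X ∉ cl0 {u 0}) :
    ∃ P : (wc a b).toAffine.Point, At η X Y A ψ e P := by
  have h1 := C.tr (vec X Y ψ)
  rw [C.eq ψ (by rw [hψ]; exact he), mul_zero, vec_eta (A.mulVec (vec X Y ψ)), tv_wf] at h1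
  have hz : A.mulVec (vec X Y ψ) 2 ≠ 0 := by
    intro h0
    rw [h0] at h1
    have h2 : A.mulVec (vec X Y ψ) 0 = 0 := by
      have h3 : A.mulVec (vec X Y ψ) 0 ^ 3 = 0 := by linear_combination -h1
      exact pow_eq_zero_iff (three_ne_zero) |>.1 h3
    have h3 := mulVec_inv C (vec X Y ψ)
    rw [vec_eta (A.mulVec (vec X Y ψ)), h0, h2] at h3
    set w := A.mulVec (vec X Y ψ) 1 with hw
    have h5 : ∀ i, A' i 1 * w = vec X Y ψ i := by
      intro i
      rw [← h3]
      simp only [mulVec, dotProduct, Fin.sum_univ_three]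
      change _ = A' i 0 * 0 + A' i 1 * w + A' i 2 * 0
      ring
    have h6 : A' 2 1 * w = 1 := h5 2
    have h7 : A' 2 1 ≠ 0 := left_ne_zero_of_mul (h6 ▸ one_ne_zero)
    have h8 : w ∈ cl0 {u 0} := by
      have h9 : w = 1 / A' 2 1 := by
        rw [eq_div_iff h7, mul_comm]
        exact h6
      rw [h9]
      exact div_mem (one_mem _) (C.memA' 2 1)
    apply hX
    have h9 : A' 0 1 * w = ψ X := h5 0
    rw [← h9]
    exact mul_mem (C.memA' 0 1) h8
  set p := A.mulVec (vec X Y ψ) 0 with hp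
  set q := A.mulVec (vec X Y ψ) 1 with hq
  set z := A.mulVec (vec X Y ψ) 2 with hz'
  have heq : (q / z) ^ 2 = (p / z) ^ 3 + a * (p / z) + b := by
    field_simp
    linear_combination h1
  refine ⟨Point.some (p / z) (q / z) (wc_nonsing C.disc heq), hψ, p / z, q / z,
    wc_nonsing C.disc heq, z, rfl, ?_⟩
  rw [vec_eta (A.mulVec (vec X Y ψ)), ← hp, ← hq, ← hz', mul_div_cancel₀ _ hz,
    mul_div_cancel₀ _ hz]

theorem conj_iff {e e' : N} {σ : N ≃ₐ[ℂ] N} (he : e' = e ∨ e' = -e) (hσ : σ e = e ∨ σ e = -e) :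
    σ e' = e ∨ σ e' = -e := by
  rcases he with rfl | rfl
  · exact hσ
  · rw [map_neg]
    rcases hσ with h | h
    · exact Or.inr (by rw [h])
    · exact Or.inl (by rw [h, neg_neg])

/-- every generic point corresponds to an embedding -/
theorem at_exists [CharZero N] [IsAlgClosed N] (C : Cub u η X Y f A A' a b) {e : N}
    (he : e = u 0 ∨ e = -u 0) {P : (wc a b).toAffine.Point} (hP : ¬ InF (cl0 {u 0}) P) :
    ∃ ψ : T →ₐ[ℂ] N, At η X Y A ψ e P := by
  -- an embedding with the right value of `η`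
  obtain ⟨φ, hφe, hφX⟩ : ∃ φ : T →ₐ[ℂ] N, φ η = e ∧ φ X ∉ cl0 {u 0} := by
    obtain ⟨φ, h1, h2⟩ := C.ex
    rcases he with rfl | rfl
    · exact ⟨φ, h1, h2⟩
    · obtain ⟨σ, hσ⟩ := exists_sign C.big
      refine ⟨σ.toAlgHom.comp φ, ?_, fun h0 => h2 ?_⟩
      · change σ (φ η) = _
        rw [h1, hσ]
      · have h3 : σ.symm (σ (φ X)) ∈ cl0 {u 0} := by
          apply map_kappa (σ := σ.symm) _ h0
          refine Or.inr ?_
          rw [AlgEquiv.symm_apply_eq, map_neg, hσ, neg_neg]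
        rwa [AlgEquiv.symm_apply_apply] at h3
  obtain ⟨P₀, h1, x₀, y₀, h₀, r, hP₀, hr⟩ := exists_at C hφe he hφX
  have heq₀ := wc_equation.1 h₀.1
  have hx₀ : x₀ ∉ cl0 {u 0} := by
    intro h2
    exact hφX (X_mem C le_rfl hr h2 (y_mem (closed_cl0 _) C.mema C.memb heq₀ h2)).1
  rcases P with (_ | ⟨x, y, h⟩)
  · exact absurd (inF_zero _) hP
  rw [inF_iff (closed_cl0 _) C.mema C.memb] at hP
  obtain ⟨g, hg, hgx, hgy⟩ := move C.big C.mema C.memb C.disc hx₀ hP heq₀ (wc_equation.1 h.1)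
  refine ⟨g.toAlgHom.comp φ, ?_, x, y, h, g r, rfl, ?_⟩
  · change g (φ η) = e
    rw [hφe]
    apply hg
    rcases he with rfl | rfl
    · exact subset_cl0 _ rfl
    · exact neg_mem (subset_cl0 _ rfl)
  · funext i
    have h2 := congrArg g (congrFun hr i)
    simp only [mulVec, dotProduct, Fin.sum_univ_three] at h2 ⊢
    rw [map_add, map_add, map_mul, map_mul, map_mul, hg _ (C.memA i 0), hg _ (C.memA i 1),
      hg _ (C.memA i 2)] at h2
    have h3 : ∀ j, g (vec X Y φ j) = vec X Y (g.toAlgHom.comp φ) j := by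
      intro j
      fin_cases j
      · rfl
      · rfl
      · exact map_one g
    rw [← h3, ← h3, ← h3, h2]
    fin_cases i
    · change g (r * x₀) = g r * x
      rw [map_mul, hgx]
    · change g (r * y₀) = g r * y
      rw [map_mul, hgy]
    · rfl

/-- the action of automorphisms on the points -/
theorem at_act [CharZero N] [IsAlgClosed N] [DecidableEq N] (hL : StmtLin) (C : Cub u η X Y f A A' a b)
    (g : N ≃ₐ[ℂ] N) (hg : g (u 0) = u 0 ∨ g (u 0) = -u 0) :
    ∃ t : (wc a b).toAffine.Point, (3 : ℕ) • t = 0 ∧ ∀ (ψ : T →ₐ[ℂ] N) (e : N)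
      (P : (wc a b).toAffine.Point), (e = u 0 ∨ e = -u 0) → ¬ InF (cl0 {u 0}) P →
      At η X Y A ψ e P → At η X Y A (g.toAlgHom.comp ψ) (g e)
        (gfun (g : N →+* N) ⟨C.fixa g hg, C.fixb g hg⟩ P + t) := by
  set gA : Matrix (Fin 3) (Fin 3) N := A.map g with hgA
  set gA' : Matrix (Fin 3) (Fin 3) N := A'.map g with hgA'
  have hmul : gA * gA' = 1 := by
    have h1 := congrArg (fun M : Matrix (Fin 3) (Fin 3) N => M.map (g : N →+* N)) C.mul
    simp only [Matrix.map_mul] at h1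
    exact h1.trans (Matrix.map_one _ (map_zero g) (map_one g))
  have hmul' : gA' * gA = 1 := by
    have h1 := congrArg (fun M : Matrix (Fin 3) (Fin 3) N => M.map (g : N →+* N)) C.mul'
    simp only [Matrix.map_mul] at h1
    exact h1.trans (Matrix.map_one _ (map_zero g) (map_one g))
  have hgv : ∀ v : Fin 3 → N, gA.mulVec (fun i => g (v i)) = fun i => g (A.mulVec v i) := by
    intro v
    funext i
    simp only [mulVec, dotProduct, Fin.sum_univ_three, map_add, map_mul]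
    rfl
  have hdet : gA.det = g A.det := (RingHom.map_det (g : N →+* N) A).symm
  have htr : ∀ v, tv (wf a b) (gA.mulVec v) = gA.det * tv f v := by
    intro v
    have h1 := congrArg g (C.tr (fun i => g.symm (v i)))
    have h2 : (fun i => g (g.symm (v i))) = v := by
      funext i
      exact g.apply_symm_apply (v i)
    have h3 : ∀ w : Fin 3 → N, g (tv (wf a b) w) = tv (wf a b) (fun i => g (w i)) := by
      intro w
      rw [vec_eta w, tv_wf, vec_eta (fun i => g _), tv_wf]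
      simp only [map_sub, map_mul, map_pow, C.fixa g hg, C.fixb g hg]
      rfl
    have h4 : ∀ w : Fin 3 → N, g (tv f w) = tv f (fun i => g (w i)) := by
      intro w
      unfold tv tc
      simp only [map_add, map_mul, map_pow, C.fixf g hg]
    rw [h3, ← hgv, h2, map_mul, h4, h2, ← hdet] at h1
    exact h1
  have hgdet : gA.det ≠ 0 := by
    rw [hdet]
    exact (map_ne_zero g).2 C.det_ne
  set B : Matrix (Fin 3) (Fin 3) N := A * gA' with hB
  have hBdet : B.det * gA.det = A.det := by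
    rw [← det_mul, hB, Matrix.mul_assoc, hmul', Matrix.mul_one]
  have hBdet0 : B.det ≠ 0 := by
    intro h0
    rw [h0, zero_mul] at hBdet
    exact C.det_ne hBdet.symm
  have hBtr : ∀ v : Fin 3 → N, tv (wf a b) (B.mulVec v) = B.det * tv (wf a b) v := by
    intro v
    have h1 := C.tr (gA'.mulVec v)
    have h2 := htr (gA'.mulVec v)
    rw [mulVec_mulVec, ← hB] at h1
    rw [mulVec_mulVec, hmul, one_mulVec] at h2
    rw [h1, h2, ← hBdet]
    ring
  obtain ⟨t, ht, hact⟩ := hL N a b B C.disc hBdet0 hBtr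
  refine ⟨t, ht, fun ψ e P he hP hat => ?_⟩
  obtain ⟨h1, x, y, hxy, r, rfl, hr⟩ := hat
  have hv : (fun i => g (vec X Y ψ i)) = vec X Y (g.toAlgHom.comp ψ) := by
    funext j
    fin_cases j
    · rfl
    · rfl
    · exact map_one g
  have h2 : A.mulVec (vec X Y (g.toAlgHom.comp ψ)) = g r • B.mulVec ![g x, g y, 1] := by
    rw [← hv, ← mulVec_smul]
    have h3 : g r • ![g x, g y, 1] = gA.mulVec (fun i => g (vec X Y ψ i)) := by
      rw [hgv, hr]
      funext i
      fin_cases i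
      · exact (map_mul g r x).symm
      · exact (map_mul g r y).symm
      · exact mul_one _
    rw [h3, mulVec_mulVec, hB, Matrix.mul_assoc, hmul', Matrix.mul_one]
  have hgX : (g.toAlgHom.comp ψ) X ∉ cl0 {u 0} := by
    intro h0
    apply hP
    rw [inF_iff (closed_cl0 _) C.mema C.memb]
    refine mem_of_X C (closed_cl0 _) le_rfl hr (wc_equation.1 hxy.1) ?_
    have h3 : g.symm (g (ψ X)) ∈ cl0 {u 0} := by
      apply map_kappa (σ := g.symm) _ h0
      rcases hg with h4 | h4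
      · exact Or.inl (by rw [AlgEquiv.symm_apply_eq, h4])
      · exact Or.inr (by rw [AlgEquiv.symm_apply_eq, map_neg, h4, neg_neg])
    rwa [AlgEquiv.symm_apply_apply] at h3
  have hge : (g.toAlgHom.comp ψ) η = g e := by
    change g (ψ η) = g e
    rw [h1]
  obtain ⟨P', hP'⟩ := exists_at C hge (conj_iff he hg) hgX
  obtain ⟨-, x', y', hxy', r', rfl, hr'⟩ := hP'
  have hr0' := r_ne C hr'
  rw [h2] at hr'
  have h5 : g r * B.mulVec ![g x, g y, 1] 2 = r' := congrFun hr' 2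
  have h6 : B.mulVec ![g x, g y, 1] 2 ≠ 0 := right_ne_zero_of_mul (h5 ▸ hr0')
  obtain ⟨h', heq⟩ := hact (g x) (g y) ((gfun_aux (g : N →+* N) ⟨C.fixa g hg, C.fixb g hg⟩ hxy)) h6
  refine ⟨hge, _, _, h', g r * B.mulVec ![g x, g y, 1] 2, heq.symm, ?_⟩
  rw [h2]
  funext i
  fin_cases i
  · change g r * B.mulVec ![g x, g y, 1] 0 = _
    change _ = g r * B.mulVec ![g x, g y, 1] 2 * (B.mulVec ![g x, g y, 1] 0 /
      B.mulVec ![g x, g y, 1] 2)
    field_simp
  · change g r * B.mulVec ![g x, g y, 1] 1 = _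
    change _ = g r * B.mulVec ![g x, g y, 1] 2 * (B.mulVec ![g x, g y, 1] 1 /
      B.mulVec ![g x, g y, 1] 2)
    field_simp
  · rfl

end

end Vale.Agent.P297.Z3
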