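import Vale.Agent.P297.H572.Z3.Star
import Vale.Agent.P297.H160.JacT

/-!
Sums of embeddings over the translates of a point by the points of order three.
-/

set_option linter.unusedSectionVars false

open IntermediateField Polynomial WeierstrassCurve WeierstrassCurve.Affine Matrix

namespace Vale.Agent.P297.Z3

open Vale.Agent.P297 Vale.Agent.P297.Gen Vale.Agent.P297.H839 Vale.Agent.P297.H516
open Vale.Agent.P297.H729 Vale.Agent.P297.H600

section

variable {T N : Type} [Field T] [Algebra ℂ T] [Field N] [Algebra ℂ N]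
variable {u : Fin 3 → N} {η X Y : T} {f : Fin 10 → N} {A A' : Matrix (Fin 3) (Fin 3) N} {a b : N}
variable [IsAlgClosed N] [DecidableEq N] [CharZero N]

/-- the sum over the translates -/
noncomputable def nsum (emb : N → (wc a b).toAffine.Point → (T →ₐ[ℂ] N)) (e : N)
    (P : (wc a b).toAffine.Point) : (T →ₐ[ℂ] N) →₀ ℤ :=
  ∑ t ∈ tors a b, Finsupp.single (emb e (P + t)) (1 : ℤ)

/-- a choice of embeddings -/
def IsEmb (η X Y : T) (A : Matrix (Fin 3) (Fin 3) N) (u : Fin 3 → N)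
    (emb : N → (wc a b).toAffine.Point → (T →ₐ[ℂ] N)) : Prop :=
  ∀ e P, (e = u 0 ∨ e = -u 0) → ¬ InF (cl0 {u 0}) P → At η X Y A (emb e P) e P

theorem exists_isEmb (C : Cub u η X Y f A A' a b) :
    ∃ emb : N → (wc a b).toAffine.Point → (T →ₐ[ℂ] N), IsEmb η X Y A u emb := by
  classical
  obtain ⟨φ, -⟩ := C.ex
  have h : ∀ (e : N) (P : (wc a b).toAffine.Point), ∃ ψ : T →ₐ[ℂ] N,
      (e = u 0 ∨ e = -u 0) → ¬ InF (cl0 {u 0}) P → At η X Y A ψ e P := by
    intro e P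
    by_cases he : e = u 0 ∨ e = -u 0
    · by_cases hP : InF (cl0 {u 0}) P
      · exact ⟨φ, fun _ h => absurd hP h⟩
      · obtain ⟨ψ, hψ⟩ := at_exists C he hP
        exact ⟨ψ, fun _ _ => hψ⟩
    · exact ⟨φ, fun h => absurd h he⟩
  choose emb hemb using h
  exact ⟨emb, hemb⟩

theorem gen_add (C : Cub u η X Y f A A' a b) {P t : (wc a b).toAffine.Point}
    (hP : ¬ InF (cl0 {u 0}) P) (ht : (3 : ℕ) • t = 0) : ¬ InF (cl0 {u 0}) (P + t) := by
  intro h
  apply hP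
  have h1 : P = P + t - t := by abel
  rw [h1]
  exact h.sub C.mema (tors_inF (closed_cl0 _) C.mema C.memb ht)

theorem gen_neg {M : IntermediateField ℂ N} {P : (wc a b).toAffine.Point} (hP : ¬ InF M P) :
    ¬ InF M (-P) := by
  intro h
  apply hP
  rw [← neg_neg P]
  exact h.neg

theorem conj_neg {e e' : N} (h : e = e' ∨ e = -e') : -e = e' ∨ -e = -e' := by
  rcases h with rfl | rfl
  · exact Or.inr rfl
  · exact Or.inl (neg_neg _)

theorem gen_act (C : Cub u η X Y f A A' a b) (g : N ≃ₐ[ℂ] N)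
    (hg : g (u 0) = u 0 ∨ g (u 0) = -u 0) {P : (wc a b).toAffine.Point}
    (hP : ¬ InF (cl0 {u 0}) P) :
    ¬ InF (cl0 {u 0}) (gfun (g : N →+* N) ⟨C.fixa g hg, C.fixb g hg⟩ P) := by
  intro h
  apply hP
  rcases P with (_ | ⟨x, y, hxy⟩)
  · exact inF_zero _
  · have hsymm : g.symm (u 0) = u 0 ∨ g.symm (u 0) = -u 0 := by
      rcases hg with h4 | h4
      · exact Or.inl (by rw [AlgEquiv.symm_apply_eq, h4])
      · exact Or.inr (by rw [AlgEquiv.symm_apply_eq, map_neg, h4, neg_neg])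
    obtain ⟨h1, h2⟩ := h (g x) (g y) (gfun_aux (g : N →+* N) ⟨C.fixa g hg, C.fixb g hg⟩ hxy) rfl
    have h3 := map_kappa (σ := g.symm) hsymm h1
    have h4 := map_kappa (σ := g.symm) hsymm h2
    rw [AlgEquiv.symm_apply_apply] at h3 h4
    exact inF_some _ h3 h4

theorem nsum_add (emb : N → (wc a b).toAffine.Point → (T →ₐ[ℂ] N)) (e : N)
    (P c : (wc a b).toAffine.Point) (hc : (3 : ℕ) • c = 0) :
    nsum emb e (P + c) = nsum emb e P := by
  classical
  unfold nsum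
  have himage : (tors a b).image (fun t => c + t) = tors a b := by
    apply Finset.eq_of_subset_of_card_le
    · intro s hs
      obtain ⟨t, ht, rfl⟩ := Finset.mem_image.1 hs
      rw [mem_tors] at ht ⊢
      rw [nsmul_add, hc, ht, add_zero]
    · rw [Finset.card_image_of_injective _ (add_right_injective c)]
  conv_rhs => rw [← himage]
  rw [Finset.sum_image (add_right_injective c).injOn]
  refine Finset.sum_congr rfl fun t _ => ?_
  rw [add_assoc]

theorem nsum_act (hL : StmtLin) (C : Cub u η X Y f A A' a b)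
    {emb : N → (wc a b).toAffine.Point → (T →ₐ[ℂ] N)} (hE : IsEmb η X Y A u emb)
    (g : N ≃ₐ[ℂ] N) (hg : g (u 0) = u 0 ∨ g (u 0) = -u 0) {e : N}
    (he : e = u 0 ∨ e = -u 0) {P : (wc a b).toAffine.Point} (hP : ¬ InF (cl0 {u 0}) P) :
    act g.toAlgHom (nsum emb e P) =
      nsum emb (g e) (gfun (g : N →+* N) ⟨C.fixa g hg, C.fixb g hg⟩ P) := by
  classical
  obtain ⟨τ, hτ, hact⟩ := at_act hL C g hg
  have hτ' := hτ
  rw [← nsum_add emb (g e) _ τ hτ]
  unfold nsum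
  rw [map_sum]
  have himage : (tors a b).image (fun t => gfun (g : N →+* N) ⟨C.fixa g hg, C.fixb g hg⟩ t) =
      tors a b := by
    apply Finset.eq_of_subset_of_card_le
    · intro s hs
      obtain ⟨t, ht, rfl⟩ := Finset.mem_image.1 hs
      rw [mem_tors] at ht ⊢
      rw [← gfun_nsmul, ht]
      rfl
    · rw [Finset.card_image_of_injective _ (gfun_injective _ _)]
  conv_rhs => rw [← himage]
  rw [Finset.sum_image (gfun_injective _ _).injOn]
  refine Finset.sum_congr rfl fun t ht => ?_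
  rw [act_single]
  congr 1
  have ht3 := mem_tors.1 ht
  have hgen := gen_add C hP ht3
  have h1 := hact _ _ _ he hgen (hE e (P + t) he hgen)
  rw [gfun_add] at h1
  have hgt : (3 : ℕ) • gfun (g : N →+* N) ⟨C.fixa g hg, C.fixb g hg⟩ t = 0 := by
    rw [← gfun_nsmul, ht3]
    rfl
  have hgen2 : ¬ InF (cl0 {u 0}) (gfun (g : N →+* N) ⟨C.fixa g hg, C.fixb g hg⟩ P + τ +
      gfun (g : N →+* N) ⟨C.fixa g hg, C.fixb g hg⟩ t) :=
    gen_add C (gen_add C (gen_act C g hg hP) hτ) hgt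
  have h2 := hE (g e) _ (conj_iff he hg) hgen2
  have h3 : gfun (g : N →+* N) ⟨C.fixa g hg, C.fixb g hg⟩ P +
      gfun (g : N →+* N) ⟨C.fixa g hg, C.fixb g hg⟩ t + τ =
      gfun (g : N →+* N) ⟨C.fixa g hg, C.fixb g hg⟩ P + τ +
      gfun (g : N →+* N) ⟨C.fixa g hg, C.fixb g hg⟩ t := by abel
  rw [h3] at h1
  exact h1.uniq C h2

/-- an automorphism that fixes the first coordinate of `3P` -/
theorem gfun_three (C : Cub u η X Y f A A' a b) (g : N ≃ₐ[ℂ] N)
    (hg : g (u 0) = u 0 ∨ g (u 0) = -u 0) {P : (wc a b).toAffine.Point} {x₃ y₃ : N}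
    {h₃ : (wc a b).toAffine.Nonsingular x₃ y₃} (hP : (3 : ℕ) • P = Point.some x₃ y₃ h₃)
    (hx : g x₃ = x₃) :
    (g y₃ = y₃ → ∃ c : (wc a b).toAffine.Point, (3 : ℕ) • c = 0 ∧
      gfun (g : N →+* N) ⟨C.fixa g hg, C.fixb g hg⟩ P = P + c) ∧
    (g y₃ = -y₃ → ∃ c : (wc a b).toAffine.Point, (3 : ℕ) • c = 0 ∧
      gfun (g : N →+* N) ⟨C.fixa g hg, C.fixb g hg⟩ P = -P + c) := by
  have h1 := gfun_nsmul (g : N →+* N) ⟨C.fixa g hg, C.fixb g hg⟩ 3 P
  rw [hP] at h1
  constructor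
  · intro hy
    refine ⟨gfun (g : N →+* N) ⟨C.fixa g hg, C.fixb g hg⟩ P - P, ?_, by abel⟩
    rw [nsmul_sub, ← h1, hP, sub_eq_zero]
    change Point.some _ _ _ = Point.some _ _ _
    rw [Point.some.injEq]
    exact ⟨hx, hy⟩
  · intro hy
    refine ⟨gfun (g : N →+* N) ⟨C.fixa g hg, C.fixb g hg⟩ P + P, ?_, by abel⟩
    rw [nsmul_add, ← h1, hP, ← eq_neg_iff_add_eq_zero, Point.neg_some]
    change Point.some _ _ _ = Point.some _ _ _
    rw [Point.some.injEq]
    refine ⟨hx, ?_⟩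
    rw [wc_negY]
    exact hy

theorem y_sign (C : Cub u η X Y f A A' a b) (g : N ≃ₐ[ℂ] N)
    (hg : g (u 0) = u 0 ∨ g (u 0) = -u 0) {x₃ y₃ : N}
    (h₃ : (wc a b).toAffine.Nonsingular x₃ y₃) (hx : g x₃ = x₃) : g y₃ = y₃ ∨ g y₃ = -y₃ := by
  apply sq_eq_sq_iff_eq_or_eq_neg.1
  have h1 := wc_equation.1 h₃.1
  have h2 := congrArg g h1
  rw [map_add, map_add, map_mul, map_pow, map_pow, hx, C.fixa g hg, C.fixb g hg] at h2
  rw [h2, h1]

/-- The main computation: twice the sum over the translates. -/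
theorem two_nsum (hL : StmtLin) (C : Cub u η X Y f A A' a b)
    {emb : N → (wc a b).toAffine.Point → (T →ₐ[ℂ] N)} (hE : IsEmb η X Y A u emb)
    (p₀ p₁ p₂ q₀ q₁ q₂ q₃ : ℂ) (hc₁ : p₂ ≠ 0 ∨ q₃ ≠ 0)
    (hc₂ : p₀ + p₁ + p₂ ≠ 0 ∨ q₀ + q₁ + q₂ + q₃ ≠ 0)
    (ha : a = algebraMap ℂ N p₀ + algebraMap ℂ N p₁ * (1 - u 0 ^ 2) +
      algebraMap ℂ N p₂ * (1 - u 0 ^ 2) ^ 2)
    (hb : b = algebraMap ℂ N q₀ + algebraMap ℂ N q₁ * (1 - u 0 ^ 2) +
      algebraMap ℂ N q₂ * (1 - u 0 ^ 2) ^ 2 + algebraMap ℂ N q₃ * (1 - u 0 ^ 2) ^ 3)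
    {e : N} (he : e = u 0 ∨ e = -u 0) {P : (wc a b).toAffine.Point}
    (hP : ¬ InF (cl0 {u 0}) P) : (2 : ℤ) • nsum emb e P ∈ stableRelations T N := by
  have haκ : a ∈ cl0 ({u 0} : Set N) := C.mema
  have hbκ : b ∈ cl0 ({u 0} : Set N) := C.memb
  have hP3 : ¬ InF (cl0 {u 0}) ((3 : ℕ) • P) := fun h =>
    hP (div_three C.big (closed_cl0 _) le_rfl haκ hbκ C.disc h)
  obtain ⟨x₃, y₃, h₃, h3P⟩ : ∃ x₃ y₃, ∃ h₃, (3 : ℕ) • P = Point.some x₃ y₃ h₃ := by
    generalize (3 : ℕ) • P = R at hP3 ⊢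
    rcases R with (_ | ⟨x, y, h⟩)
    · exact absurd (inF_zero _) hP3
    · exact ⟨x, y, h, rfl⟩
  rw [h3P, inF_iff (closed_cl0 _) haκ hbκ] at hP3
  obtain ⟨t, ht⟩ := exists_notMem C.big x₃
  have heq₃ := wc_equation.1 h₃.1
  have hPn := gen_neg hP
  have hall : ∀ v : N, v ∈ cl0 (Set.range ![x₃, u 0, t]) :=
    all_mem C.big hP3 ht (subset_cl0 _ ⟨1, rfl⟩) (subset_cl0 _ ⟨0, rfl⟩) (subset_cl0 _ ⟨2, rfl⟩)
  have hind := indep_of_all C.big hall
  -- the first relation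
  have R1 : ∀ e, (e = u 0 ∨ e = -u 0) → nsum emb e P + nsum emb e (-P) ∈ stableRelations T N := by
    intro e he
    refine stable_of_fixed (IntermediateField.adjoin ℂ (Set.range ![x₃, u 0, t]))
      ⟨3, _, hind, rfl⟩ ⟨fun v => mem_cl0.1 (hall v)⟩ _ fun g hg => ?_
    have hgx : g x₃ = x₃ := hg _ (IntermediateField.subset_adjoin _ _ ⟨0, rfl⟩)
    have hgu : g (u 0) = u 0 := hg _ (IntermediateField.subset_adjoin _ _ ⟨1, rfl⟩)
    have hgu' : g (u 0) = u 0 ∨ g (u 0) = -u 0 := Or.inl hgu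
    have hge : g e = e := by
      rcases he with rfl | rfl
      · exact hgu
      · rw [map_neg, hgu]
    rw [map_add, nsum_act hL C hE g hgu' he hP, nsum_act hL C hE g hgu' he hPn, hge, gfun_neg]
    obtain ⟨k1, k2⟩ := gfun_three C g hgu' h3P hgx
    rcases y_sign C g hgu' h₃ hgx with hy | hy
    · obtain ⟨c, hc, hgP⟩ := k1 hy
      have hc' : (3 : ℕ) • (-c) = 0 := by rw [smul_neg, hc, neg_zero]
      rw [hgP, neg_add, nsum_add _ _ _ _ hc, nsum_add _ _ _ _ hc']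
    · obtain ⟨c, hc, hgP⟩ := k2 hy
      have hc' : (3 : ℕ) • (-c) = 0 := by rw [smul_neg, hc, neg_zero]
      rw [hgP, neg_add, nsum_add _ _ _ _ hc, nsum_add _ _ _ _ hc', neg_neg, add_comm]
  have hsq : ∀ g : N ≃ₐ[ℂ] N, g (1 - u 0 ^ 2) = 1 - u 0 ^ 2 →
      g (u 0) = u 0 ∨ g (u 0) = -u 0 := by
    intro g hg
    apply sq_eq_sq_iff_eq_or_eq_neg.1
    rw [map_sub, map_one, map_pow] at hg
    linear_combination -hg
  have hSall : ∀ S : Set N, (1 - u 0 ^ 2) ∈ S → x₃ ∈ S → t ∈ S →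
      Algebra.IsAlgebraic (IntermediateField.adjoin ℂ S) N := by
    intro S h1 h2 h4
    refine all_alg C.big hP3 ht ?_ (subset_cl0 _ h2) (subset_cl0 _ h4)
    apply closed_cl0
    have h5 : (1 - u 0 ^ 2) ∈ cl0 S := subset_cl0 _ h1
    refine isAlgebraic_of_coeff (p := (Polynomial.X : N[X]) ^ 2 -
      Polynomial.C (1 - (1 - u 0 ^ 2))) ?_ ?_ ?_
    · intro n
      rw [coeff_sub, coeff_X_pow, coeff_C]
      refine sub_mem ?_ ?_
      · split_ifs
        · exact one_mem _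
        · exact zero_mem _
      · split_ifs
        · exact sub_mem (one_mem _) h5
        · exact zero_mem _
    · exact (monic_X_pow_sub_C _ two_ne_zero).ne_zero
    · rw [eval_sub, eval_pow, eval_X, eval_C]
      ring
  have hgfix : ∀ g : N ≃ₐ[ℂ] N, (g e = e ∧ g (-e) = -e) ∨ (g e = -e ∧ g (-e) = e) ↔
      (g e = e ∨ g e = -e) := by
    intro g
    rw [map_neg]
    constructor
    · rintro (⟨h, -⟩ | ⟨h, -⟩)
      · exact Or.inl h
      · exact Or.inr h
    · rintro (h | h)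
      · exact Or.inl ⟨h, by rw [h]⟩
      · exact Or.inr ⟨h, by rw [h, neg_neg]⟩
  have hge : ∀ g : N ≃ₐ[ℂ] N, (g (u 0) = u 0 ∨ g (u 0) = -u 0) → (g e = e ∨ g e = -e) := by
    intro g hg
    rcases he with rfl | rfl
    · exact hg
    · rw [map_neg, neg_neg]
      rcases hg with h | h
      · exact Or.inl (by rw [h])
      · exact Or.inr (by rw [h, neg_neg])
  -- the second relation
  have R2 : nsum emb e P + nsum emb (-e) P ∈ stableRelations T N := by
    have hrat := H160.jac_rational₁ p₀ p₁ p₂ q₀ q₁ q₂ q₃ hc₁ (x := x₃) (e := u 0) (t := t)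
      (y := y₃) (s := 1 - u 0 ^ 2) hind rfl (by rw [← ha, ← hb]; exact heq₃)
    refine stable_of_fixed _ hrat (hSall _ (by simp) (by simp) (by simp)) _ fun g hg => ?_
    have hgs : g (1 - u 0 ^ 2) = 1 - u 0 ^ 2 :=
      hg _ (IntermediateField.subset_adjoin _ _ (by simp))
    have hgx : g x₃ = x₃ := hg _ (IntermediateField.subset_adjoin _ _ (by simp))
    have hgy : g y₃ = y₃ := hg _ (IntermediateField.subset_adjoin _ _ (by simp))
    have hgu' := hsq g hgs
    rw [map_add, nsum_act hL C hE g hgu' he hP, nsum_act hL C hE g hgu' (conj_neg he) hP]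
    obtain ⟨c, hc, hgP⟩ := (gfun_three C g hgu' h3P hgx).1 hgy
    rw [hgP, nsum_add _ _ _ _ hc, nsum_add _ _ _ _ hc]
    rcases (hgfix g).2 (hge g hgu') with ⟨h1, h2⟩ | ⟨h1, h2⟩
    · rw [h1, h2]
    · rw [h1, h2, add_comm]
  -- the third relation
  have R3 : nsum emb e P + nsum emb (-e) (-P) ∈ stableRelations T N := by
    have hrat := H160.jac_rational₂ p₀ p₁ p₂ q₀ q₁ q₂ q₃ hc₂ (x := x₃) (e := u 0) (t := t)
      (y := y₃) (s := 1 - u 0 ^ 2) hind rfl (by rw [← ha, ← hb]; exact heq₃)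
    refine stable_of_fixed _ hrat (hSall _ (by simp) (by simp) (by simp)) _ fun g hg => ?_
    have hgs : g (1 - u 0 ^ 2) = 1 - u 0 ^ 2 :=
      hg _ (IntermediateField.subset_adjoin _ _ (by simp))
    have hgx : g x₃ = x₃ := hg _ (IntermediateField.subset_adjoin _ _ (by simp))
    have hgy : g (u 0 * y₃) = u 0 * y₃ := hg _ (IntermediateField.subset_adjoin _ _ (by simp))
    have hgu' := hsq g hgs
    have hu0 : u 0 ≠ 0 := by
      intro h0
      apply C.big.zero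
      rw [h0]
      exact isAlgebraic_zero
    rw [map_add, nsum_act hL C hE g hgu' he hP, nsum_act hL C hE g hgu' (conj_neg he) hPn,
      gfun_neg]
    obtain ⟨k1, k2⟩ := gfun_three C g hgu' h3P hgx
    rcases hgu' with hg1 | hg1
    · have hy : g y₃ = y₃ := by
        rw [map_mul, hg1] at hgy
        exact mul_left_cancel₀ hu0 hgy
      obtain ⟨c, hc, hgP⟩ := k1 hy
      have hc' : (3 : ℕ) • (-c) = 0 := by rw [smul_neg, hc, neg_zero]
      have h1 : g e = e := by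
        rcases he with rfl | rfl
        · exact hg1
        · rw [map_neg, hg1]
      rw [hgP, neg_add, nsum_add _ _ _ _ hc, nsum_add _ _ _ _ hc', map_neg, h1]
    · have hy : g y₃ = -y₃ := by
        rw [map_mul, hg1] at hgy
        apply mul_left_cancel₀ hu0
        linear_combination -hgy
      obtain ⟨c, hc, hgP⟩ := k2 hy
      have hc' : (3 : ℕ) • (-c) = 0 := by rw [smul_neg, hc, neg_zero]
      have h1 : g e = -e := by
        rcases he with rfl | rfl
        · exact hg1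
        · rw [map_neg, hg1]
      rw [hgP, neg_add, nsum_add _ _ _ _ hc, nsum_add _ _ _ _ hc', map_neg, h1, neg_neg, neg_neg,
        add_comm]
  have h1 : (2 : ℤ) • nsum emb e P = (nsum emb e P + nsum emb (-e) P) +
      (nsum emb e P + nsum emb (-e) (-P)) - (nsum emb (-e) P + nsum emb (-e) (-P)) := by
    rw [two_smul]
    abel
  rw [h1]
  exact sub_mem (add_mem R2 R3) (R1 (-e) (conj_neg he))

end

end Vale.Agent.P297.Z3
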