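import Vale.Agent.P297.H572.Z3.Tr

/-!
Points of the curve with coordinates in closed subfields.
-/

set_option linter.unusedSectionVars false

open IntermediateField Polynomial WeierstrassCurve WeierstrassCurve.Affine

namespace Vale.Agent.P297.Z3

open Vale.Agent.P297 Vale.Agent.P297.Gen Vale.Agent.P297.H839 Vale.Agent.P297.H516

section

variable {N : Type} [Field N] [Algebra ℂ N] {a b : N}

/-- the points with coordinates in a subfield -/
def InF (M : IntermediateField ℂ N) (P : (wc a b).toAffine.Point) : Prop :=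
  ∀ x y h, P = Point.some x y h → x ∈ M ∧ y ∈ M

theorem inF_zero (M : IntermediateField ℂ N) : InF M (0 : (wc a b).toAffine.Point) :=
  fun _ _ h h0 => absurd h0.symm (Point.some_ne_zero h)

theorem inF_some {M : IntermediateField ℂ N} {x y : N} (h : (wc a b).toAffine.Nonsingular x y)
    (hx : x ∈ M) (hy : y ∈ M) : InF M (Point.some x y h) := by
  intro x' y' h' heq
  obtain ⟨rfl, rfl⟩ := Point.some.inj heq
  exact ⟨hx, hy⟩

theorem InF.mono {M M' : IntermediateField ℂ N} (h : M ≤ M') {P : (wc a b).toAffine.Point}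
    (hP : InF M P) : InF M' P := fun x y hxy heq => ⟨h (hP x y hxy heq).1, h (hP x y hxy heq).2⟩

theorem InF.neg {M : IntermediateField ℂ N} {P : (wc a b).toAffine.Point} (hP : InF M P) :
    InF M (-P) := by
  rcases P with (_ | ⟨x, y, h⟩)
  · exact hP
  · obtain ⟨h1, h2⟩ := hP x y h rfl
    rw [Point.neg_some]
    refine inF_some _ h1 ?_
    rw [wc_negY]
    exact neg_mem h2

theorem InF.add [DecidableEq N] {M : IntermediateField ℂ N} (ha : a ∈ M)
    {P Q : (wc a b).toAffine.Point} (hP : InF M P) (hQ : InF M Q) : InF M (P + Q) := by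
  rcases P with (_ | ⟨x₁, y₁, h₁⟩)
  · have h0 : (Point.zero : (wc a b).toAffine.Point) + Q = Q := zero_add Q
    rw [h0]
    exact hQ
  rcases Q with (_ | ⟨x₂, y₂, h₂⟩)
  · have h0 : Point.some x₁ y₁ h₁ + (Point.zero : (wc a b).toAffine.Point) =
      Point.some x₁ y₁ h₁ := add_zero _
    rw [h0]
    exact hP
  obtain ⟨hx₁, hy₁⟩ := hP _ _ _ rfl
  obtain ⟨hx₂, hy₂⟩ := hQ _ _ _ rfl
  by_cases hxy : x₁ = x₂ ∧ y₁ = (wc a b).toAffine.negY x₂ y₂
  · rw [Point.add_of_Y_eq hxy.1 hxy.2]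
    exact inF_zero M
  · rw [Point.add_some hxy]
    have hl : (wc a b).toAffine.slope x₁ x₂ y₁ y₂ ∈ M := by
      unfold Affine.slope
      have h0 : (0 : N) ∈ M := zero_mem M
      split_ifs with h1 h2
      · exact zero_mem M
      · rw [wc_negY]
        simp only [wc]
        refine div_mem (sub_mem (add_mem (add_mem ?_ ?_) ha) ?_) (sub_mem hy₁ (neg_mem hy₁))
        · exact mul_mem (ofNat_mem M 3) (pow_mem hx₁ 2)
        · exact mul_mem (mul_mem (ofNat_mem M 2) h0) hx₁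
        · exact mul_mem h0 hy₁
      · exact div_mem (sub_mem hy₁ hy₂) (sub_mem hx₁ hx₂)
    refine inF_some _ ?_ ?_
    · rw [wc_addX]
      exact sub_mem (sub_mem (pow_mem hl 2) hx₁) hx₂
    · rw [wc_addY]
      exact neg_mem (add_mem (mul_mem hl (sub_mem (sub_mem (sub_mem (pow_mem hl 2) hx₁) hx₂) hx₁))
        hy₁)

theorem InF.sub [DecidableEq N] {M : IntermediateField ℂ N} (ha : a ∈ M)
    {P Q : (wc a b).toAffine.Point} (hP : InF M P) (hQ : InF M Q) : InF M (P - Q) := by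
  rw [sub_eq_add_neg]
  exact hP.add ha hQ.neg

theorem InF.nsmul [DecidableEq N] {M : IntermediateField ℂ N} (ha : a ∈ M)
    {P : (wc a b).toAffine.Point} (hP : InF M P) (n : ℕ) : InF M (n • P) := by
  induction n with
  | zero =>
    rw [zero_smul]
    exact inF_zero M
  | succ n ih =>
    rw [succ_nsmul]
    exact ih.add ha hP

theorem y_mem {M : IntermediateField ℂ N} (hM : Closed M) (ha : a ∈ M) (hb : b ∈ M) {x y : N}
    (h : y ^ 2 = x ^ 3 + a * x + b) (hx : x ∈ M) : y ∈ M := by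
  apply hM
  refine isAlgebraic_of_coeff (p := X ^ 2 - C (x ^ 3 + a * x + b)) ?_ ?_ ?_
  · intro n
    rw [coeff_sub, coeff_X_pow, coeff_C]
    refine sub_mem ?_ ?_
    · split_ifs
      · exact one_mem _
      · exact zero_mem _
    · split_ifs
      · exact add_mem (add_mem (pow_mem hx 3) (mul_mem ha hx)) hb
      · exact zero_mem _
  · exact (monic_X_pow_sub_C _ two_ne_zero).ne_zero
  · rw [eval_sub, eval_pow, eval_X, eval_C, h, sub_self]

theorem inF_iff {M : IntermediateField ℂ N} (hM : Closed M) (ha : a ∈ M) (hb : b ∈ M) {x y : N}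
    (h : (wc a b).toAffine.Nonsingular x y) : InF M (Point.some x y h) ↔ x ∈ M :=
  ⟨fun h1 => (h1 x y h rfl).1, fun h1 => inF_some h h1 (y_mem hM ha hb (wc_equation.1 h.1) h1)⟩

theorem C_mul_pow_coeff_mem {M : IntermediateField ℂ N} {c : N} (hc : c ∈ M) (m n : ℕ) :
    (C c * X ^ m : N[X]).coeff n ∈ M := by
  rw [coeff_C_mul, coeff_X_pow]
  refine mul_mem hc ?_
  split_ifs
  · exact one_mem _
  · exact zero_mem _

theorem quartic_mem {M : IntermediateField ℂ N} (hM : Closed M) {x c₄ c₃ c₂ c₁ c₀ : N}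
    (h4 : c₄ ∈ M) (h3 : c₃ ∈ M) (h2 : c₂ ∈ M) (h1 : c₁ ∈ M) (h0 : c₀ ∈ M)
    (hne : c₄ ≠ 0 ∨ c₃ ≠ 0)
    (h : c₄ * x ^ 4 + c₃ * x ^ 3 + c₂ * x ^ 2 + c₁ * x + c₀ = 0) : x ∈ M := by
  apply hM
  refine isAlgebraic_of_coeff (p := C c₄ * X ^ 4 + C c₃ * X ^ 3 + C c₂ * X ^ 2 + C c₁ * X ^ 1 +
    C c₀ * X ^ 0) ?_ ?_ ?_
  · intro n
    simp only [coeff_add]
    exact add_mem (add_mem (add_mem (add_mem (C_mul_pow_coeff_mem h4 _ _)
      (C_mul_pow_coeff_mem h3 _ _)) (C_mul_pow_coeff_mem h2 _ _)) (C_mul_pow_coeff_mem h1 _ _))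
      (C_mul_pow_coeff_mem h0 _ _)
  · intro h5
    have k4 := congrArg (fun p => coeff p 4) h5
    have k3 := congrArg (fun p => coeff p 3) h5
    simp only [coeff_add, coeff_C_mul, coeff_X_pow, coeff_zero] at k4 k3
    norm_num at k4 k3
    rcases hne with h6 | h6
    · exact h6 k4
    · exact h6 k3
  · simp only [eval_add, eval_mul, eval_C, eval_pow, eval_X]
    linear_combination h

/-- a line with coefficients in `M` meets the curve in points with coordinates in `M` -/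
theorem line_mem {M : IntermediateField ℂ N} (hM : Closed M) (ha : a ∈ M) (hb : b ∈ M)
    {x y p q r : N} (h : y ^ 2 = x ^ 3 + a * x + b) (hp : p ∈ M) (hq : q ∈ M) (hr : r ∈ M)
    (hne : p ≠ 0 ∨ q ≠ 0) (hl : p * x + q * y + r = 0) : x ∈ M := by
  by_cases hq0 : q = 0
  · have hp0 : p ≠ 0 := hne.resolve_right (fun h0 => h0 hq0)
    have h1 : x = -r / p := by
      rw [eq_div_iff hp0]
      rw [hq0] at hl
      linear_combination hl
    rw [h1]
    exact div_mem (neg_mem hr) hp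
  · refine quartic_mem hM (c₄ := 0) (c₃ := q ^ 2) (c₂ := -p ^ 2) (c₁ := q ^ 2 * a - 2 * p * r)
      (c₀ := q ^ 2 * b - r ^ 2) (zero_mem _) (pow_mem hq 2) (neg_mem (pow_mem hp 2))
      (sub_mem (mul_mem (pow_mem hq 2) ha) (mul_mem (mul_mem (ofNat_mem M 2) hp) hr))
      (sub_mem (mul_mem (pow_mem hq 2) hb) (pow_mem hr 2)) (Or.inr (pow_ne_zero 2 hq0)) ?_
    linear_combination (-q ^ 2) * h + (q * y - p * x - r) * hl

theorem tors_inF [DecidableEq N] [CharZero N] {M : IntermediateField ℂ N} (hM : Closed M)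
    (ha : a ∈ M) (hb : b ∈ M) {P : (wc a b).toAffine.Point} (hP : (3 : ℕ) • P = 0) :
    InF M P := by
  rcases P with (_ | ⟨x, y, h⟩)
  · exact inF_zero M
  · rw [inF_iff hM ha hb]
    have h1 := three_coord h hP
    refine quartic_mem hM (c₄ := 3) (c₃ := 0) (c₂ := 6 * a) (c₁ := 12 * b)
      (c₀ := -a ^ 2) (ofNat_mem M 3) (zero_mem _) (mul_mem (ofNat_mem M 6) ha)
      (mul_mem (ofNat_mem M 12) hb) (neg_mem (pow_mem ha 2)) (Or.inl (by norm_num)) ?_
    linear_combination h1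

theorem cubic_sep {k : Type} [Field k] {a b : k} (hd : 4 * a ^ 3 + 27 * b ^ 2 ≠ 0) :
    (X ^ 3 + C a * X + C b : k[X]).Separable := by
  have hder : (X ^ 3 + C a * X + C b : k[X]).derivative = 3 * X ^ 2 + C a := by
    simp only [derivative_add, derivative_X_pow, derivative_mul, derivative_C, derivative_X,
      zero_mul, zero_add, mul_one, add_zero]
    norm_num
    exact map_ofNat C 3
  rw [Polynomial.separable_def, hder]
  refine ⟨C ((4 * a ^ 3 + 27 * b ^ 2)⁻¹) * (-27 * (X ^ 3 + C a * X - C b)),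
    C ((4 * a ^ 3 + 27 * b ^ 2)⁻¹) * ((3 * X ^ 2 + 4 * C a) * (3 * X ^ 2 + C a)), ?_⟩
  have h1 : C ((4 * a ^ 3 + 27 * b ^ 2)⁻¹) * (4 * C a ^ 3 + 27 * C b ^ 2) = (1 : k[X]) := by
    have h2 : (4 * C a ^ 3 + 27 * C b ^ 2 : k[X]) = C (4 * a ^ 3 + 27 * b ^ 2) := by
      simp only [map_add, map_mul, map_pow, map_ofNat]
    rw [h2, ← C_mul, inv_mul_cancel₀ hd, C_1]
  linear_combination h1

variable [IsAlgClosed N] {u : Fin 3 → N}

/-- any two generic points of the curve are conjugate -/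
theorem move (h : Big N u) (ha : a ∈ cl0 {u 0}) (hb : b ∈ cl0 {u 0})
    (hd : 4 * a ^ 3 + 27 * b ^ 2 ≠ 0) {x y x' y' : N} (hx : x ∉ cl0 {u 0}) (hx' : x' ∉ cl0 {u 0})
    (hy : y ^ 2 = x ^ 3 + a * x + b) (hy' : y' ^ 2 = x' ^ 3 + a * x' + b) :
    ∃ g : N ≃ₐ[ℂ] N, (∀ z ∈ cl0 {u 0}, g z = z) ∧ g x = x' ∧ g y = y' := by
  obtain ⟨M, hM, hκ, h1, h2, h3, h4⟩ := hyper2 h hx hx'
  let F : M[X] := X ^ 3 + C ⟨a, hκ ha⟩ * X + C ⟨b, hκ hb⟩
  have hF : F.Separable := by
    apply cubic_sep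
    intro h0
    apply hd
    exact congrArg Subtype.val h0
  have hev : ∀ z : N, aeval z F = z ^ 3 + a * z + b := by
    intro z
    simp only [F, map_add, map_mul, map_pow, aeval_X, aeval_C]
    rfl
  have hdeg : 0 < F.natDegree := by
    have h5 : F.natDegree = 3 := by
      simp only [F]
      compute_degree!
    omega
  obtain ⟨g, hg, hgx, hgy⟩ := ext_emb M hM F hF hdeg h1 h2 (by rw [hev]; exact hy)
    (by rw [hev]; exact hy') h3 h4
  exact ⟨g, fun z hz => hg z (hκ hz), hgx, hgy⟩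

/-- a point with three times it defined over a closed field is defined over it -/
theorem div_three [DecidableEq N] [CharZero N] (h : Big N u) {M : IntermediateField ℂ N}
    (hM : Closed M) (hκ : cl0 {u 0} ≤ M) (ha : a ∈ M) (hb : b ∈ M)
    (hd : 4 * a ^ 3 + 27 * b ^ 2 ≠ 0) {P : (wc a b).toAffine.Point}
    (hP : InF M ((3 : ℕ) • P)) : InF M P := by
  rcases P with (_ | ⟨x, y, hxy⟩)
  · exact inF_zero M
  rw [inF_iff hM ha hb]
  by_contra hx
  obtain ⟨M', hM', hMM', hx', halg⟩ := hyper1 h hM hκ hx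
  let F : M'[X] := X ^ 3 + C ⟨a, hMM' ha⟩ * X + C ⟨b, hMM' hb⟩
  have hF : F.Separable := by
    apply cubic_sep
    intro h0
    apply hd
    exact congrArg Subtype.val h0
  have hev : ∀ z : N, aeval z F = z ^ 3 + a * z + b := by
    intro z
    simp only [F, map_add, map_mul, map_pow, aeval_X, aeval_C]
    rfl
  have hdeg : 0 < F.natDegree := by
    have h5 : F.natDegree = 3 := by
      simp only [F]
      compute_degree!
    omega
  have hxn : ∀ n : ℕ, x + n ∉ M' := by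
    intro n h0
    have h1 := sub_mem h0 (_root_.natCast_mem M' n)
    rw [add_sub_cancel_right] at h1
    exact hx' h1
  have halgn : ∀ n : ℕ, ∀ v : N, IsAlgebraic (IntermediateField.adjoin M' {x + (n : N)}) v := by
    intro n v
    rw [← mem_clo]
    have h1 : x ∈ clo M' {x + (n : N)} := by
      have h2 := sub_mem (mem_clo_self M' (x + (n : N))) (_root_.natCast_mem (clo M' {x + (n : N)}) n)
      rwa [add_sub_cancel_right] at h2
    exact clo_single_le (closed_clo _ _) (le_clo _ _) h1 (mem_clo.2 (halg v))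
  have hroot : ∀ n : ℕ, ∃ w : N, w ^ 2 = (x + n) ^ 3 + a * (x + n) + b := by
    intro n
    obtain ⟨w, hw⟩ := IsAlgClosed.exists_pow_nat_eq ((x + n) ^ 3 + a * (x + n) + b)
      (Nat.succ_pos 1)
    exact ⟨w, hw⟩
  choose w hw using hroot
  have hg : ∀ n : ℕ, ∃ g : N ≃ₐ[ℂ] N, (∀ z ∈ M', g z = z) ∧ g x = x + n ∧ g y = w n := by
    intro n
    exact ext_emb M' hM' F hF hdeg hx' (hxn n) (by rw [hev]; exact wc_equation.1 hxy.1)
      (by rw [hev]; exact hw n) halg (halgn n)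
  choose g hgM hgx hgy using hg
  have hab : ∀ n, (g n : N →+* N) a = a ∧ (g n : N →+* N) b = b := fun n =>
    ⟨hgM n a (hMM' ha), hgM n b (hMM' hb)⟩
  have h3 : ∀ n, gfun (g n : N →+* N) (hab n) (Point.some x y hxy) - Point.some x y hxy ∈
      tors a b := by
    intro n
    rw [mem_tors, nsmul_sub, ← gfun_nsmul, sub_eq_zero]
    generalize (3 : ℕ) • Point.some x y hxy = R at hP ⊢
    rcases R with (_ | ⟨x', y', h'⟩)
    · rfl
    · obtain ⟨h1, h2⟩ := hP x' y' h' rfl
      change Point.some _ _ _ = Point.some _ _ _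
      rw [Point.some.injEq]
      exact ⟨hgM n x' (hMM' h1), hgM n y' (hMM' h2)⟩
  let φ : ℕ → tors a b := fun n => ⟨_, h3 n⟩
  obtain ⟨m, n, hmn, heq⟩ := Finite.exists_ne_map_eq_of_infinite φ
  apply hmn
  have h4 := congrArg Subtype.val heq
  have h5 := sub_left_injective h4
  have h6 := (Point.some.inj h5).1
  have h7 : x + (m : N) = x + n := by
    rw [← hgx, ← hgx]
    exact h6
  exact_mod_cast add_left_cancel h7

end

end Vale.Agent.P297.Z3
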