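import Vale.Agent.P297.H572.Z3.Emb

/-!
Collinear points of the generic plane cubic.
-/

set_option linter.unusedSectionVars false

open IntermediateField Polynomial WeierstrassCurve WeierstrassCurve.Affine Matrix

namespace Vale.Agent.P297.Z3

open Vale.Agent.P297 Vale.Agent.P297.Gen Vale.Agent.P297.H839 Vale.Agent.P297.H516
open Vale.Agent.P297.H729 Vale.Agent.P297.H600

section

variable {T N : Type} [Field T] [Algebra ℂ T] [Field N] [Algebra ℂ N]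

/-- a finite set of embeddings that is stable under the automorphisms over a rational field -/
theorem sum_stable (L : IntermediateField ℂ N) (hL : IsRational L)
    (hLa : Algebra.IsAlgebraic L N) (S : Finset (T →ₐ[ℂ] N))
    (hS : ∀ g : N ≃ₐ[ℂ] N, (∀ x ∈ L, g x = x) → ∀ ψ ∈ S, g.toAlgHom.comp ψ ∈ S) :
    ∑ ψ ∈ S, Finsupp.single ψ (1 : ℤ) ∈ stableRelations T N := by
  classical
  refine stable_of_fixed L hL hLa _ fun g hg => ?_
  rw [map_sum]
  simp only [act_single]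
  have hinj : Function.Injective (fun ψ : T →ₐ[ℂ] N => g.toAlgHom.comp ψ) := by
    intro φ ψ h
    apply AlgHom.ext
    intro k
    exact g.injective (DFunLike.congr_fun h k)
  have himage : S.image (fun ψ => g.toAlgHom.comp ψ) = S := by
    apply Finset.eq_of_subset_of_card_le
    · intro ψ hψ
      obtain ⟨φ, hφ, rfl⟩ := Finset.mem_image.1 hψ
      exact hS g hg φ hφ
    · rw [Finset.card_image_of_injective _ hinj]
  conv_rhs => rw [← himage]
  rw [Finset.sum_image hinj.injOn]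

variable {u : Fin 3 → N} {η X Y : T} {f : Fin 10 → N} {A A' : Matrix (Fin 3) (Fin 3) N} {a b : N}

theorem row_iff (C : Cub u η X Y f A A' a b) {ψ : T →ₐ[ℂ] N} {x y r : N}
    (h : A.mulVec (vec X Y ψ) = ![r * x, r * y, r]) (c : Fin 3 → N) :
    c ⬝ᵥ vec X Y ψ = 0 ↔ (c ᵥ* A') 0 * x + (c ᵥ* A') 1 * y + (c ᵥ* A') 2 = 0 := by
  have hr0 := r_ne C h
  have h1 : c ⬝ᵥ vec X Y ψ =
      r * ((c ᵥ* A') 0 * x + (c ᵥ* A') 1 * y + (c ᵥ* A') 2) := by
    rw [← mulVec_inv C (vec X Y ψ), dotProduct_mulVec, h]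
    simp only [dotProduct, Fin.sum_univ_three]
    change (c ᵥ* A') 0 * (r * x) + (c ᵥ* A') 1 * (r * y) + (c ᵥ* A') 2 * r = _
    ring
  rw [h1]
  constructor
  · intro h2
    exact (mul_eq_zero.1 h2).resolve_left hr0
  · intro h2
    rw [h2, mul_zero]

theorem row_ne (C : Cub u η X Y f A A' a b) {c : Fin 3 → N} (hc : c ≠ 0) : c ᵥ* A' ≠ 0 := by
  intro h5
  have h6 : c ᵥ* (A' * A) = 0 := by
    rw [← vecMul_vecMul, h5, zero_vecMul]
  rw [C.mul', vecMul_one] at h6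
  exact hc h6

variable [IsAlgClosed N] [DecidableEq N] [CharZero N]

theorem At.generic (C : Cub u η X Y f A A' a b) {ψ : T →ₐ[ℂ] N} {e : N}
    {P : (wc a b).toAffine.Point} (h : At η X Y A ψ e P) (hP : ¬ InF (cl0 {u 0}) P) :
    ψ X ∉ cl0 {u 0} := by
  intro hX
  obtain ⟨h1, x, y, hxy, r, rfl, hr⟩ := h
  apply hP
  rw [inF_iff (closed_cl0 _) C.mema C.memb]
  exact mem_of_X C (closed_cl0 _) le_rfl hr (wc_equation.1 hxy.1) hX

/-- The sum of three collinear points. -/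
theorem star (C : Cub u η X Y f A A' a b) {e : N} (he : e = u 0 ∨ e = -u 0)
    {x₁ y₁ : N} {h₁ : (wc a b).toAffine.Nonsingular x₁ y₁} {P₂ : (wc a b).toAffine.Point}
    (hx₁ : x₁ ∉ cl0 {u 0}) (hP₂ : ¬ InF (clo (cl0 {u 0}) {x₁}) P₂) {ψ₁ ψ₂ ψ₃ : T →ₐ[ℂ] N}
    (H₁ : At η X Y A ψ₁ e (Point.some x₁ y₁ h₁)) (H₂ : At η X Y A ψ₂ e P₂)
    (H₃ : At η X Y A ψ₃ e (-(Point.some x₁ y₁ h₁ + P₂))) :
    Finsupp.single ψ₁ (1 : ℤ) + (Finsupp.single ψ₂ 1 + Finsupp.single ψ₃ 1) ∈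
      stableRelations T N := by
  have hdec : DecidableEq (T →ₐ[ℂ] N) := Classical.decEq _
  set κ := cl0 ({u 0} : Set N) with hκ
  set M₁ := clo κ {x₁} with hM₁
  have hκc : Closed κ := closed_cl0 _
  have hM₁c : Closed M₁ := closed_clo _ _
  have hκM₁ : κ ≤ M₁ := le_clo _ _
  have haκ : a ∈ κ := C.mema
  have hbκ : b ∈ κ := C.memb
  have hP₁M : InF M₁ (Point.some x₁ y₁ h₁) :=
    (inF_iff hM₁c (hκM₁ haκ) (hκM₁ hbκ) h₁).2 (mem_clo_self _ _)
  have gen₁ : ¬ InF κ (Point.some x₁ y₁ h₁) := by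
    rw [inF_iff hκc haκ hbκ]
    exact hx₁
  have gen₂ : ¬ InF κ P₂ := fun h => hP₂ (h.mono hκM₁)
  have gen₃ : ¬ InF κ (-(Point.some x₁ y₁ h₁ + P₂)) := by
    intro h
    apply hP₂
    have h1 : P₂ = -(-(Point.some x₁ y₁ h₁ + P₂)) - Point.some x₁ y₁ h₁ := by abel
    rw [h1]
    exact ((h.mono hκM₁).neg).sub (hκM₁ haκ) hP₁M
  have hX₁ := H₁.generic C gen₁
  have hX₂ := H₂.generic C gen₂
  have hX₃ := H₃.generic C gen₃
  have ne₁₂ : ψ₁ ≠ ψ₂ := by
    rintro rfl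
    have h1 := H₁.inj C H₂
    rw [← h1] at hP₂
    exact hP₂ hP₁M
  have ne₁₃ : ψ₁ ≠ ψ₃ := by
    rintro rfl
    have h1 := H₁.inj C H₃
    apply hP₂
    have h2 : P₂ = -(-(Point.some x₁ y₁ h₁ + P₂)) - Point.some x₁ y₁ h₁ := by abel
    rw [h2, ← h1]
    exact (hP₁M.neg).sub (hκM₁ haκ) hP₁M
  have H₂' := H₂
  have H₃' := H₃
  obtain ⟨hψ₁, x₁', y₁', h₁', r₁, hP₁e, hr₁⟩ := H₁
  obtain ⟨rfl, rfl⟩ := Point.some.inj hP₁e
  obtain ⟨hψ₂, x₂, y₂, h₂, r₂, rfl, hr₂⟩ := H₂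
  have hx₂ : x₂ ∉ M₁ := by
    rwa [inF_iff hM₁c (hκM₁ haκ) (hκM₁ hbκ)] at hP₂
  have ne₂₃ : ψ₂ ≠ ψ₃ := by
    rintro rfl
    have h1 := H₂'.inj C H₃
    have h3 : InF (clo κ {x₂}) (Point.some x₁ y₁ h₁) := by
      have h2 : Point.some x₁ y₁ h₁ =
          -(-(Point.some x₁ y₁ h₁ + Point.some x₂ y₂ h₂)) - Point.some x₂ y₂ h₂ := by abel
      rw [h2, ← h1]
      have h4 : InF (clo κ {x₂}) (Point.some x₂ y₂ h₂) :=
        (inF_iff (closed_clo _ _) (le_clo _ _ haκ) (le_clo _ _ hbκ) h₂).2 (mem_clo_self _ _)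
      exact (h4.neg).sub (le_clo _ _ haκ) h4
    exact hx₂ (exchange hκc ((inF_iff (closed_clo _ _) (le_clo _ _ haκ) (le_clo _ _ hbκ) h₁).1 h3)
      hx₁)
  have hx₁₂ : x₁ ≠ x₂ := by
    rintro rfl
    exact hx₂ (mem_clo_self _ _)
  have heq₁ := wc_equation.1 h₁.1
  have heq₂ := wc_equation.1 h₂.1
  have hX₁₂ : ψ₂ X - ψ₁ X ≠ 0 := by
    intro h0
    apply hx₂
    refine mem_of_X C hM₁c hκM₁ hr₂ heq₂ ?_
    rw [sub_eq_zero.1 h0]
    exact (X_mem C hκM₁ hr₁ (mem_clo_self _ _)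
      (y_mem hM₁c (hκM₁ haκ) (hκM₁ hbκ) heq₁ (mem_clo_self _ _))).1
  -- the line
  set s : N := (ψ₂ Y - ψ₁ Y) / (ψ₂ X - ψ₁ X) with hs
  set t : N := ψ₁ Y - s * ψ₁ X with ht
  have hsm : s * (ψ₂ X - ψ₁ X) = ψ₂ Y - ψ₁ Y := div_mul_cancel₀ _ hX₁₂
  set c : Fin 3 → N := ![s, -1, t] with hc
  have hcv : ∀ ψ : T →ₐ[ℂ] N, c ⬝ᵥ vec X Y ψ = s * ψ X - ψ Y + t := by
    intro ψ
    simp only [dotProduct, Fin.sum_univ_three]
    change s * ψ X + -1 * ψ Y + t * 1 = _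
    ring
  have hc0 : c ≠ 0 := by
    intro h0
    have h1 : (-1 : N) = 0 := congrFun h0 1
    exact one_ne_zero (neg_eq_zero.1 h1)
  have hc₁ : c ⬝ᵥ vec X Y ψ₁ = 0 := by
    rw [hcv, ht]
    ring
  have hc₂ : c ⬝ᵥ vec X Y ψ₂ = 0 := by
    rw [hcv, ht]
    linear_combination hsm
  set d := c ᵥ* A' with hd
  have hd0 : d ≠ 0 := row_ne C hc0
  have hd₁ := (row_iff C hr₁ c).1 hc₁
  have hd₂ := (row_iff C hr₂ c).1 hc₂
  rw [← hd] at hd₁ hd₂
  have hd10 : d 1 ≠ 0 := by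
    intro h0
    rw [h0] at hd₁ hd₂
    have h1 : d 0 * (x₁ - x₂) = 0 := by linear_combination hd₁ - hd₂
    have h2 : d 0 = 0 := (mul_eq_zero.1 h1).resolve_right (sub_ne_zero.2 hx₁₂)
    rw [h2] at hd₁
    apply hd0
    funext i
    fin_cases i
    · exact h2
    · exact h0
    · change d 2 = 0
      linear_combination hd₁
  set l : N := -(d 0 / d 1) with hl
  have hld : l * d 1 = -d 0 := by
    rw [hl, neg_mul, div_mul_cancel₀ _ hd10]
  -- points on the line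
  have hline : ∀ x y : N, d 0 * x + d 1 * y + d 2 = 0 ↔ y = l * (x - x₁) + y₁ := by
    intro x y
    constructor
    · intro h
      apply mul_left_cancel₀ hd10
      linear_combination h - hd₁ + (x₁ - x) * hld
    · rintro rfl
      linear_combination hd₁ + (x - x₁) * hld
  have hy₂ : y₂ = l * (x₂ - x₁) + y₁ := (hline _ _).1 hd₂
  have hslope : (wc a b).toAffine.slope x₁ x₂ y₁ y₂ = l := by
    rw [wc_slope_of_ne hx₁₂, div_eq_iff (sub_ne_zero.2 hx₁₂), hy₂]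
    ring
  have hP₃ : ∃ h₃, -(Point.some x₁ y₁ h₁ + Point.some x₂ y₂ h₂) =
      Point.some (l ^ 2 - x₁ - x₂) (l * (l ^ 2 - x₁ - x₂ - x₁) + y₁) h₃ := by
    have h1 := Point.add_some (W := (wc a b).toAffine) (h₁ := h₁) (h₂ := h₂)
      (fun h => hx₁₂ h.1)
    have h2 : (wc a b).toAffine.Nonsingular (l ^ 2 - x₁ - x₂)
        (l * (l ^ 2 - x₁ - x₂ - x₁) + y₁) := by
      have h3 := (Affine.nonsingular_neg _ _).2 (Affine.nonsingular_add h₁ h₂
        (fun h => hx₁₂ h.1))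
      rw [wc_negY, wc_addY, wc_addX, neg_neg, hslope] at h3
      exact h3
    refine ⟨h2, ?_⟩
    rw [h1, Point.neg_some, Point.some.injEq]
    refine ⟨?_, ?_⟩
    · rw [wc_addX, hslope]
    · rw [wc_negY, wc_addY, hslope, neg_neg]
  obtain ⟨h₃, hP₃⟩ := hP₃
  have hc₃ : c ⬝ᵥ vec X Y ψ₃ = 0 := by
    obtain ⟨-, x₃, y₃, h₃', r₃, hP₃', hr₃⟩ := H₃
    rw [hP₃] at hP₃'
    obtain ⟨rfl, rfl⟩ := Point.some.inj hP₃'
    rw [row_iff C hr₃ c, ← hd, hline]
  -- the field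
  have hall : ∀ v, v ∈ cl0 (Set.range ![e, s, t]) := by
    set M := cl0 (Set.range ![e, s, t]) with hM
    have hMc : Closed M := closed_cl0 _
    have heM : e ∈ M := subset_cl0 _ ⟨0, rfl⟩
    have hsM : s ∈ M := subset_cl0 _ ⟨1, rfl⟩
    have htM : t ∈ M := subset_cl0 _ ⟨2, rfl⟩
    have hu : u 0 ∈ M := by
      rcases he with h | h
      · rw [← h]
        exact heM
      · have h1 := neg_mem heM
        rwa [h, neg_neg] at h1
    have hκM : κ ≤ M := cl0_le hMc (Set.singleton_subset_iff.2 hu)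
    have hcM : ∀ i, c i ∈ M := by
      intro i
      fin_cases i
      · exact hsM
      · exact neg_mem (one_mem M)
      · exact htM
    have k1 : x₁ ∈ M := At.row C hMc hκM hr₁ heq₁ c hcM hc0 hc₁
    have k2 : x₂ ∈ M := At.row C hMc hκM hr₂ heq₂ c hcM hc0 hc₂
    exact all_mem C.big hx₁ hx₂ hu k1 k2
  have hrat : IsRational (IntermediateField.adjoin ℂ (Set.range ![e, s, t])) :=
    ⟨3, _, indep_of_all C.big hall, rfl⟩
  have halg : Algebra.IsAlgebraic (IntermediateField.adjoin ℂ (Set.range ![e, s, t])) N :=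
    ⟨fun v => mem_cl0.1 (hall v)⟩
  have hkey := sum_stable (T := T) _ hrat halg {ψ₁, ψ₂, ψ₃} (by
    intro g hg ψ hψ
    have hge : g e = e := hg e (IntermediateField.subset_adjoin _ _ ⟨0, rfl⟩)
    have hgs : g s = s := hg s (IntermediateField.subset_adjoin _ _ ⟨1, rfl⟩)
    have hgt : g t = t := hg t (IntermediateField.subset_adjoin _ _ ⟨2, rfl⟩)
    have hgu : g (u 0) = u 0 ∨ g (u 0) = - u 0 := by
      rcases he with rfl | rfl
      · exact Or.inl hge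
      · rw [map_neg, neg_inj] at hge
        exact Or.inl hge
    have hψ' : ψ η = e ∧ c ⬝ᵥ vec X Y ψ = 0 ∧ ψ X ∉ κ := by
      simp only [Finset.mem_insert, Finset.mem_singleton] at hψ
      rcases hψ with rfl | rfl | rfl
      · exact ⟨hψ₁, hc₁, hX₁⟩
      · exact ⟨hψ₂, hc₂, hX₂⟩
      · exact ⟨H₃.1, hc₃, hX₃⟩
    obtain ⟨k1, k2, k3⟩ := hψ'
    have k4 : (g.toAlgHom.comp ψ) η = e := by
      change g (ψ η) = e
      rw [k1, hge]
    have k5 : c ⬝ᵥ vec X Y (g.toAlgHom.comp ψ) = 0 := by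
      rw [hcv] at k2 ⊢
      have k6 := congrArg g k2
      rw [map_add, map_sub, map_mul, hgs, hgt, map_zero] at k6
      exact k6
    have k7 : (g.toAlgHom.comp ψ) X ∉ κ := by
      intro h0
      apply k3
      have h3 : g.symm (g (ψ X)) ∈ cl0 {u 0} := by
        apply map_kappa (σ := g.symm) _ h0
        rcases hgu with h4 | h4
        · exact Or.inl (by rw [AlgEquiv.symm_apply_eq, h4])
        · exact Or.inr (by rw [AlgEquiv.symm_apply_eq, map_neg, h4, neg_neg])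
      rwa [AlgEquiv.symm_apply_apply] at h3
    obtain ⟨P', hP'⟩ := exists_at C k4 he k7
    have hP'' := hP'
    obtain ⟨-, x', y', h', r', rfl, hr'⟩ := hP'
    rw [row_iff C hr' c, ← hd, hline] at k5
    simp only [Finset.mem_insert, Finset.mem_singleton]
    rcases line_three hx₁₂ heq₁ heq₂ (wc_equation.1 h'.1) hy₂ k5 with rfl | rfl | rfl
    · left
      refine hP''.uniq C ⟨hψ₁, x', y₁, h₁, r₁, ?_, hr₁⟩
      rw [Point.some.injEq]
      refine ⟨rfl, ?_⟩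
      rw [k5]
      ring
    · right; left
      refine hP''.uniq C ⟨hψ₂, x', y₂, h₂, r₂, ?_, hr₂⟩
      rw [Point.some.injEq]
      exact ⟨rfl, k5.trans hy₂.symm⟩
    · right; right
      refine hP''.uniq C ?_
      rw [hP₃] at H₃'
      have h5 : Point.some (l ^ 2 - x₁ - x₂) y' h' =
          Point.some (l ^ 2 - x₁ - x₂) (l * (l ^ 2 - x₁ - x₂ - x₁) + y₁) h₃ := by
        rw [Point.some.injEq]
        exact ⟨rfl, k5⟩
      rw [h5]
      exact H₃')
  rwa [Finset.sum_insert, Finset.sum_insert, Finset.sum_singleton] at hkey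
  · rw [Finset.mem_singleton]
    exact ne₂₃
  · rw [Finset.mem_insert, Finset.mem_singleton, not_or]
    exact ⟨ne₁₂, ne₁₃⟩

end

end Vale.Agent.P297.Z3
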